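import Vale.Agent.P011.H209.Insep.Root
import Vale.Agent.P011.H271.GF

/-!
# The components of the elements of a global function field over its `q`-th powers
-/

open Module Polynomial
open scoped IntermediateField

namespace Vale.Agent.P011.H209.Insep

open Vale.Agent.P011.H271

section val

variable {k : Type} [Field k] {v : AbsoluteValue k ℝ}

theorem sum_lt (hna : IsNonarchimedean v) {ι : Type} (s : Finset ι) (g : ι → k) {r : ℝ}
    (hr : 0 < r) (h : ∀ j ∈ s, v (g j) < r) : v (∑ j ∈ s, g j) < r := by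
  classical
  induction s using Finset.induction_on with
  | empty => simpa using hr
  | insert a s ha ih =>
    rw [Finset.sum_insert ha]
    refine (hna _ _).trans_lt (max_lt (h a (Finset.mem_insert_self a s)) ?_)
    exact ih fun j hj => h j (Finset.mem_insert_of_mem hj)

theorem exp_eq {c : k} (hc0 : c ≠ 0) (hc1 : v c < 1) (hc : ∀ y, v y < 1 → v y ≤ v c) {q i j : ℕ}
    (hj : j < q) (hij : i ≤ j) {y z : k} (hz : z ≠ 0)
    (h : v y ^ q * v c ^ i = v z ^ q * v c ^ j) : i = j := by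
  by_contra hne
  have hlt : i < j := lt_of_le_of_ne hij hne
  have hvc : 0 < v c := v.pos hc0
  have hvz : 0 < v z := v.pos hz
  have h1 : v (y / z) ^ q = v c ^ (j - i) := by
    rw [map_div₀, div_pow, div_eq_iff (pow_ne_zero _ hvz.ne')]
    have h2 : v c ^ j = v c ^ (j - i) * v c ^ i := by rw [← pow_add, Nat.sub_add_cancel hij]
    rw [h2] at h
    have h3 : v c ^ i ≠ 0 := pow_ne_zero _ hvc.ne'
    apply mul_right_cancel₀ h3
    rw [h]
    ring
  have h4 : v (y / z) < 1 := by
    by_contra hcon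
    rw [not_lt] at hcon
    have h5 : 1 ≤ v (y / z) ^ q := one_le_pow₀ hcon
    rw [h1] at h5
    exact absurd (pow_lt_one₀ hvc.le hc1 (by omega)) (not_lt.mpr h5)
  have h5 := hc _ h4
  have h6 : v (y / z) ^ q ≤ v c ^ q := pow_le_pow_left₀ (v.nonneg _) h5 q
  have h7 : v c ^ q < v c ^ (j - i) := pow_lt_pow_right_of_lt_one₀ hvc hc1 (by omega)
  rw [h1] at h6
  exact absurd h7 (not_lt.mpr h6)

/-- The components are bounded. -/
theorem abv_bound (hna : IsNonarchimedean v) {c : k} (hc0 : c ≠ 0) (hc1 : v c < 1)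
    (hc : ∀ y, v y < 1 → v y ≤ v c) {q : ℕ} (e : Fin q → k) (i : Fin q) :
    v (e i) ^ q * v c ^ (i : ℕ) ≤ v (∑ i : Fin q, e i ^ q * c ^ (i : ℕ)) := by
  classical
  have hq : q ≠ 0 := by
    have := i.2
    omega
  have hvc : 0 < v c := v.pos hc0
  let f : Fin q → ℝ := fun i => v (e i) ^ q * v c ^ (i : ℕ)
  obtain ⟨i0, -, hi0⟩ := Finset.exists_max_image Finset.univ f ⟨i, Finset.mem_univ i⟩
  refine (hi0 i (Finset.mem_univ i)).trans ?_
  have hf : ∀ j, f j = v (e j ^ q * c ^ (j : ℕ)) := fun j => by rw [map_mul, map_pow, map_pow]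
  by_cases h0 : e i0 = 0
  · have h1 : f i0 = 0 := by
      change v (e i0) ^ q * _ = 0
      rw [h0, map_zero, zero_pow hq, zero_mul]
    rw [h1]
    exact v.nonneg _
  · have hpos : 0 < f i0 := mul_pos (pow_pos (v.pos h0) _) (pow_pos hvc _)
    have hlt : ∀ j ∈ Finset.univ.erase i0, v (e j ^ q * c ^ (j : ℕ)) < f i0 := by
      intro j hj
      rw [← hf]
      refine lt_of_le_of_ne (hi0 j (Finset.mem_univ j)) fun heq => ?_
      have hej : e j ≠ 0 := by
        intro h1
        have h2 : f j = 0 := by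
          change v (e j) ^ q * _ = 0
          rw [h1, map_zero, zero_pow hq, zero_mul]
        rw [h2] at heq
        exact hpos.ne heq
      rcases le_total (j : ℕ) (i0 : ℕ) with h | h
      · exact (Finset.mem_erase.mp hj).1 (Fin.ext (exp_eq hc0 hc1 hc i0.2 h h0 heq))
      · exact (Finset.mem_erase.mp hj).1 (Fin.ext (exp_eq hc0 hc1 hc j.2 h hej heq.symm).symm)
    have h1 := sum_lt hna (Finset.univ.erase i0) (fun j => e j ^ q * c ^ (j : ℕ)) hpos hlt
    have h2 : e i0 ^ q * c ^ (i0 : ℕ) + ∑ j ∈ Finset.univ.erase i0, e j ^ q * c ^ (j : ℕ) =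
        ∑ j : Fin q, e j ^ q * c ^ (j : ℕ) :=
      Finset.add_sum_erase Finset.univ (fun j : Fin q => e j ^ q * c ^ (j : ℕ))
        (Finset.mem_univ i0)
    by_contra hcon
    rw [not_le] at hcon
    have h3 : e i0 ^ q * c ^ (i0 : ℕ) = (∑ j : Fin q, e j ^ q * c ^ (j : ℕ)) +
        -(∑ j ∈ Finset.univ.erase i0, e j ^ q * c ^ (j : ℕ)) := by
      rw [← h2]
      abel
    have h4 : v (e i0 ^ q * c ^ (i0 : ℕ)) < f i0 := by
      rw [h3]
      refine (hna _ _).trans_lt (max_lt hcon ?_)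
      rw [v.map_neg]
      exact h1
    rw [← hf] at h4
    exact lt_irrefl _ h4

end val

section deg

variable {k : Type} [Field k] {p e : ℕ} [Fact p.Prime] [CharP k p]

/-- The `q`-th powers. -/
def powF (k : Type) [Field k] (p e : ℕ) [Fact p.Prime] [CharP k p] : Subfield k :=
  (iterateFrobenius k p e).fieldRange

theorem mem_powF {x : k} : x ∈ powF k p e ↔ ∃ y : k, y ^ p ^ e = x := by
  unfold powF
  rw [RingHom.mem_fieldRange]
  constructor
  · rintro ⟨y, hy⟩
    exact ⟨y, by rw [← hy, iterateFrobenius_def]⟩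
  · rintro ⟨y, hy⟩
    exact ⟨y, by rw [← hy, iterateFrobenius_def]⟩

/-- The degree over the `q`-th powers. -/
theorem finrank_powF [GFF k] : FiniteDimensional (powF k p e) k ∧
    finrank (powF k p e) k ≤ p ^ e := by
  obtain ⟨F, iF, iFin, φ, hφ⟩ := (inferInstance : GFF k).out
  let _ : Algebra (RatFunc F) k := φ.toAlgebra
  have hsep : Algebra.IsSeparable (RatFunc F) k := hφ.2
  have hR : CharP (RatFunc F) p :=
    (RingHom.charP_iff φ φ.injective p).mpr inferInstance
  have hF : CharP F p :=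
    (RingHom.charP_iff (algebraMap F (RatFunc F)) (algebraMap F (RatFunc F)).injective p).mpr hR
  let X0 : k := φ RatFunc.X
  let Z : IntermediateField (powF k p e) k := (powF k p e)⟮X0⟯
  -- the rational functions are in `Z`
  have hC : ∀ x : F, φ (algebraMap F (RatFunc F) x) ∈ Z := by
    intro x
    have hbij : Function.Bijective (iterateFrobenius F p e) :=
      Finite.injective_iff_bijective.mp (iterateFrobenius F p e).injective
    obtain ⟨y, hy⟩ := hbij.2 x
    have h1 : φ (algebraMap F (RatFunc F) x) ∈ powF k p e := by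
      rw [mem_powF]
      exact ⟨φ (algebraMap F (RatFunc F) y), by rw [← map_pow, ← map_pow, ← hy,
        iterateFrobenius_def]⟩
    exact Z.algebraMap_mem ⟨_, h1⟩
  have hP : ∀ P : F[X], φ (algebraMap F[X] (RatFunc F) P) ∈ Z := by
    intro P
    induction P using Polynomial.induction_on' with
    | add P Q hP hQ => rw [map_add, map_add]; exact Z.add_mem hP hQ
    | monomial i x =>
      rw [← C_mul_X_pow_eq_monomial, map_mul, map_pow, map_mul, map_pow]
      refine Z.mul_mem ?_ (pow_mem ?_ i)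
      · have h1 : algebraMap F[X] (RatFunc F) (C x) = algebraMap F (RatFunc F) x := rfl
        rw [h1]
        exact hC x
      · rw [RatFunc.algebraMap_X]
        exact IntermediateField.mem_adjoin_simple_self _ X0
  have hK0 : ∀ r : RatFunc F, φ r ∈ Z := by
    intro r
    rw [← RatFunc.num_div_denom r, map_div₀]
    exact Z.div_mem (hP _) (hP _)
  have htop : Z = ⊤ := by
    rw [eq_top_iff]
    intro s _
    have h1 : s ∈ IntermediateField.adjoin (RatFunc F) {s ^ p ^ e} := by
      rw [← IntermediateField.adjoin_simple_eq_adjoin_pow_expChar_pow_of_isSeparable'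
        (RatFunc F) k s p e]
      exact IntermediateField.mem_adjoin_simple_self _ s
    have h2 : (IntermediateField.adjoin (RatFunc F) {s ^ p ^ e}).toSubfield ≤ Z.toSubfield := by
      change Subfield.closure (Set.range (algebraMap (RatFunc F) k) ∪ {s ^ p ^ e}) ≤ _
      rw [Subfield.closure_le]
      rintro y (⟨r, rfl⟩ | hy)
      · exact hK0 r
      · rw [Set.mem_singleton_iff] at hy
        rw [hy]
        exact Z.algebraMap_mem ⟨_, mem_powF.mpr ⟨s, rfl⟩⟩
    exact h2 h1
  have hXq : X0 ^ p ^ e ∈ powF k p e := mem_powF.mpr ⟨X0, rfl⟩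
  have hmon : (X ^ p ^ e - C (⟨_, hXq⟩ : powF k p e)).Monic :=
    monic_X_pow_sub_C _ (pow_ne_zero e (Fact.out : p.Prime).ne_zero)
  have hroot : aeval X0 (X ^ p ^ e - C (⟨_, hXq⟩ : powF k p e)) = 0 := by
    rw [map_sub, map_pow, aeval_X, aeval_C, sub_eq_zero]
    rfl
  have hint : IsIntegral (powF k p e) X0 := ⟨_, hmon, hroot⟩
  have hfin : FiniteDimensional (powF k p e) (powF k p e)⟮X0⟯ :=
    IntermediateField.adjoin.finiteDimensional hint
  have h3 : finrank (powF k p e) (powF k p e)⟮X0⟯ ≤ p ^ e := by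
    rw [IntermediateField.adjoin.finrank hint]
    have h4 := natDegree_le_of_dvd (minpoly.dvd _ _ hroot) hmon.ne_zero
    rwa [natDegree_X_pow_sub_C] at h4
  have htop' : (powF k p e)⟮X0⟯ = ⊤ := htop
  rw [htop'] at hfin h3
  have e1 := (IntermediateField.topEquiv (F := powF k p e) (E := k)).toLinearEquiv
  refine ⟨Module.Finite.equiv e1, ?_⟩
  rw [← e1.finrank_eq]
  exact h3

/-- **The components.** -/
theorem exists_comp [GFF k] {ι : Type} (V : ι → AbsoluteValue k ℝ)
    (hna : ∀ i, IsNonarchimedean (V i)) (hne : Nonempty ι) {c : k} (hc0 : c ≠ 0)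
    (hc1 : ∀ i, V i c < 1) (hc : ∀ i y, V i y < 1 → V i y ≤ V i c) :
    ∃ κ : Fin (p ^ e) → k → k, (∀ i x y, κ i (x + y) = κ i x + κ i y) ∧
      (∀ b, b = ∑ i : Fin (p ^ e), κ i b ^ p ^ e * c ^ (i : ℕ)) ∧
      (∀ b i, κ i (b ^ p ^ e) = if (i : ℕ) = 0 then b else 0) ∧
      ∀ w i b, V w (κ i b) ^ p ^ e * V w c ^ (i : ℕ) ≤ V w b := by
  obtain ⟨hfin, hle⟩ := finrank_powF (k := k) (p := p) (e := e)
  have hq : p ^ e ≠ 0 := pow_ne_zero e (Fact.out : p.Prime).ne_zero
  have hnq : Nonempty (Fin (p ^ e)) := ⟨⟨0, Nat.pos_of_ne_zero hq⟩⟩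
  obtain ⟨w0⟩ := hne
  have hrt : ∀ x : powF k p e, ∃ y : k, y ^ p ^ e = x := fun x => mem_powF.mp x.2
  choose rt hrt using hrt
  have hli : LinearIndependent (powF k p e) fun i : Fin (p ^ e) => c ^ (i : ℕ) := by
    rw [Fintype.linearIndependent_iff]
    intro g hg i
    have h1 : ∑ i : Fin (p ^ e), rt (g i) ^ p ^ e * c ^ (i : ℕ) = 0 := by
      rw [← hg]
      refine Finset.sum_congr rfl fun i _ => ?_
      rw [hrt]
      rfl
    have h2 := abv_bound (hna w0) hc0 (hc1 w0) (hc w0) (fun i => rt (g i)) i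
    rw [h1, map_zero] at h2
    have h3 : 0 < V w0 c ^ (i : ℕ) := pow_pos ((V w0).pos hc0) _
    have h4 : V w0 (rt (g i)) ^ p ^ e = 0 := by
      have h5 : 0 ≤ V w0 (rt (g i)) ^ p ^ e := pow_nonneg ((V w0).nonneg _) _
      nlinarith
    have h5 : rt (g i) = 0 := (V w0).eq_zero.mp (pow_eq_zero_iff hq |>.mp h4)
    have h6 := hrt (g i)
    rw [h5, zero_pow hq] at h6
    exact Subtype.ext h6.symm
  have hcard : Fintype.card (Fin (p ^ e)) = finrank (powF k p e) k := by
    refine le_antisymm hli.fintype_card_le_finrank ?_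
    rw [Fintype.card_fin]
    exact hle
  let B := basisOfLinearIndependentOfCardEqFinrank hli hcard
  have hB : ∀ i, B i = c ^ (i : ℕ) := fun i => by
    rw [coe_basisOfLinearIndependentOfCardEqFinrank]
  let κ : Fin (p ^ e) → k → k := fun i b => rt (B.repr b i)
  have hκ : ∀ i b, κ i b ^ p ^ e = (B.repr b i : k) := fun i b => hrt _
  have hsum : ∀ b, b = ∑ i : Fin (p ^ e), κ i b ^ p ^ e * c ^ (i : ℕ) := by
    intro b
    conv_lhs => rw [← B.sum_repr b]
    refine Finset.sum_congr rfl fun i _ => ?_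
    rw [hκ, hB]
    rfl
  refine ⟨κ, fun i x y => ?_, hsum, fun b i => ?_, fun w i b => ?_⟩
  · apply pow_inj p e
    rw [add_pow_char_pow, hκ, hκ, hκ, map_add, Finsupp.add_apply]
    rfl
  · apply pow_inj p e
    rw [hκ]
    have h1 : b ^ p ^ e = (⟨b ^ p ^ e, mem_powF.mpr ⟨b, rfl⟩⟩ : powF k p e) •
        B ⟨0, Nat.pos_of_ne_zero hq⟩ := by
      rw [hB]
      change b ^ p ^ e = b ^ p ^ e * c ^ 0
      rw [pow_zero, mul_one]
    have h2 : B.repr (b ^ p ^ e) = Finsupp.single ⟨0, Nat.pos_of_ne_zero hq⟩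
        (⟨b ^ p ^ e, mem_powF.mpr ⟨b, rfl⟩⟩ : powF k p e) := by
      conv_lhs => rw [h1]
      rw [map_smul, B.repr_self, Finsupp.smul_single, smul_eq_mul, mul_one]
    rw [h2]
    by_cases hi : (i : ℕ) = 0
    · have h3 : i = ⟨0, Nat.pos_of_ne_zero hq⟩ := Fin.ext hi
      rw [if_pos hi, h3, Finsupp.single_eq_same]
    · rw [if_neg hi, Finsupp.single_eq_of_ne (fun h => hi (by rw [h])), zero_pow hq]
      rfl
  · conv_rhs => rw [hsum b]
    exact abv_bound (hna w) hc0 (hc1 w) (hc w) (fun i => κ i b) i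

end deg

end Vale.Agent.P011.H209.Insep
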