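import Vale.Agent.P011.H209.Insep.RWp
import Vale.Agent.P011.W.Gen

/-!
# The coefficients in the powers of a moving element
-/

open Module Matrix Filter Topology
open scoped IntermediateField

namespace Vale.Agent.P011.H209.Insep

section alg

variable {K D : Type} [Field K] [DivisionRing D] [Algebra K D] [FiniteDimensional K D]

/-- `n` independent powers of an element of degree at most `n` span it. -/
theorem mem_pow_of_li {n q : ℕ} {z : D} (hz : (minpoly K z).natDegree ≤ n)
    (hli : LinearIndependent K fun j : Fin n => z ^ (q * (j : ℕ))) :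
    ∃ x : Fin n → K, z = ∑ j, x j • z ^ (q * (j : ℕ)) := by
  obtain ⟨F, _, _, _, φ, y, hy, hyt⟩ := exists_sub (K := K) z
  have hφ : Function.Injective φ := φ.toRingHom.injective
  have hF : finrank K F = (minpoly K z).natDegree := by
    rw [← IntermediateField.finrank_top', ← hyt,
      IntermediateField.adjoin.finrank (IsIntegral.of_finite K y), ← minpoly.algHom_eq φ hφ y, hy]
  have hli' : LinearIndependent K fun j : Fin n => y ^ (q * (j : ℕ)) := by
    refine LinearIndependent.of_comp φ.toLinearMap ?_
    have h1 : (φ.toLinearMap ∘ fun j : Fin n => y ^ (q * (j : ℕ))) =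
        fun j : Fin n => z ^ (q * (j : ℕ)) := by
      funext j
      change φ (y ^ (q * (j : ℕ))) = _
      rw [map_pow, hy]
    rw [h1]
    exact hli
  have h1 : n ≤ finrank K F := by
    have h2 := hli'.fintype_card_le_finrank
    rwa [Fintype.card_fin] at h2
  have hFn : finrank K F = n := le_antisymm (by rw [hF]; exact hz) h1
  have hne : Nonempty (Fin n) := by
    by_contra h0
    have h2 : 0 < finrank K F := finrank_pos
    rw [hFn] at h2
    exact h0 ⟨⟨0, h2⟩⟩
  let B := basisOfLinearIndependentOfCardEqFinrank hli' (by rw [Fintype.card_fin, hFn])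
  have h2 := B.sum_repr y
  refine ⟨fun j => B.repr y j, ?_⟩
  have h3 := congrArg φ h2
  rw [map_sum, hy] at h3
  refine h3.symm.trans (Finset.sum_congr rfl fun j _ => ?_)
  have h4 : B j = y ^ (q * (j : ℕ)) := by
    rw [coe_basisOfLinearIndependentOfCardEqFinrank]
  rw [map_smul, h4, map_pow, hy]

end alg

/-- **Cramer.** -/
theorem cramer {K D : Type} [Field K] [DivisionRing D] [Algebra K D] [FiniteDimensional K D]
    [TopologicalSpace K] [IsTopologicalDivisionRing K] [T1Space K] [TopologicalSpace D]
    [IsTopologicalRing D] (hl : ∀ l : D →ₗ[K] K, Continuous l) {n q : ℕ}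
    (hdeg : ∀ x : D, (minpoly K x).natDegree ≤ n) {z : D}
    (hz : LinearIndependent K fun j : Fin n => z ^ (q * (j : ℕ))) :
    ∃ e : Fin n → D → K, (∀ j, ContinuousAt (e j) z) ∧
      ∀ᶠ z' in 𝓝 z, z' = ∑ j, e j z' • z' ^ (q * (j : ℕ)) := by
  classical
  -- a left inverse
  let g : (Fin n → K) →ₗ[K] D := Fintype.linearCombination K fun j : Fin n => z ^ (q * (j : ℕ))
  have hg : ∀ x : Fin n → K, g x = ∑ j, x j • z ^ (q * (j : ℕ)) := fun x =>
    Fintype.linearCombination_apply K _ x
  have hker : LinearMap.ker g = ⊥ := by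
    rw [LinearMap.ker_eq_bot']
    intro x hx
    rw [hg] at hx
    exact funext fun j => Fintype.linearIndependent_iff.mp hz x hx j
  obtain ⟨π, hπ⟩ := g.exists_leftInverse_of_injective hker
  have hπz : ∀ j : Fin n, π (z ^ (q * (j : ℕ))) = Pi.single j 1 := by
    intro j
    have h1 : g (Pi.single j 1) = z ^ (q * (j : ℕ)) := by
      rw [hg, Finset.sum_eq_single j]
      · rw [Pi.single_eq_same, one_smul]
      · intro i _ hij
        rw [Pi.single_eq_of_ne hij, zero_smul]
      · intro h
        exact absurd (Finset.mem_univ j) h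
    rw [← h1]
    exact LinearMap.congr_fun hπ (Pi.single j 1)
  have hπc : ∀ i : Fin n, Continuous fun x : D => π x i := fun i =>
    hl ((LinearMap.proj i).comp π)
  let M : D → Matrix (Fin n) (Fin n) K := fun w => Matrix.of fun i j => π (w ^ (q * (j : ℕ))) i
  have hM : Continuous M := by
    refine continuous_matrix fun i j => ?_
    exact (hπc i).comp (continuous_pow _)
  have hM1 : M z = 1 := by
    ext i j
    change π (z ^ (q * (j : ℕ))) i = _
    rw [hπz, Matrix.one_apply, Pi.single_apply]
  have hdet : ContinuousAt (fun w => (M w).det) z := hM.matrix_det.continuousAt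
  have hdet1 : (M z).det = 1 := by rw [hM1, Matrix.det_one]
  have hnz : ∀ᶠ w in 𝓝 z, (M w).det ≠ 0 := by
    have h1 : (M z).det ≠ 0 := by rw [hdet1]; exact one_ne_zero
    exact hdet.eventually_ne h1
  refine ⟨fun j w => ((M w).det)⁻¹ * ((M w).adjugate *ᵥ π w) j, fun j => ?_, ?_⟩
  · refine ContinuousAt.mul ?_ ?_
    · exact ContinuousAt.inv₀ hdet (by rw [hdet1]; exact one_ne_zero)
    · have h1 : Continuous fun w => (M w).adjugate *ᵥ (π w) :=
        hM.matrix_adjugate.matrix_mulVec (continuous_pi hπc)
      exact ((continuous_apply j).comp h1).continuousAt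
  · filter_upwards [hnz] with w hw
    have hliw : LinearIndependent K fun j : Fin n => w ^ (q * (j : ℕ)) := by
      rw [Fintype.linearIndependent_iff]
      intro x hx
      have h1 : M w *ᵥ x = 0 := by
        have h2 := congrArg π hx
        rw [map_sum, map_zero] at h2
        funext i
        have h3 := congrFun h2 i
        rw [Finset.sum_apply] at h3
        rw [Matrix.mulVec, dotProduct, ← h3]
        refine Finset.sum_congr rfl fun j _ => ?_
        rw [map_smul, Pi.smul_apply, smul_eq_mul, mul_comm]
        rfl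
      have h2 := Matrix.eq_zero_of_mulVec_eq_zero hw h1
      exact fun j => congrFun h2 j
    obtain ⟨x, hx⟩ := mem_pow_of_li (hdeg w) hliw
    have h1 : M w *ᵥ x = π w := by
      have h2 := congrArg π hx
      rw [map_sum] at h2
      rw [h2]
      funext i
      rw [Finset.sum_apply, Matrix.mulVec, dotProduct]
      refine Finset.sum_congr rfl fun j _ => ?_
      rw [map_smul, Pi.smul_apply, smul_eq_mul, mul_comm]
      rfl
    have h3 : ∀ j, ((M w).det)⁻¹ * ((M w).adjugate *ᵥ π w) j = x j := by
      intro j
      rw [← h1, Matrix.mulVec_mulVec, Matrix.adjugate_mul, Matrix.smul_mulVec, Matrix.one_mulVec,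
        Pi.smul_apply, smul_eq_mul, ← mul_assoc, inv_mul_cancel₀ hw, one_mul]
    simp only [h3]
    exact hx

end Vale.Agent.P011.H209.Insep
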