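import Vale.Agent.P011.H605.Odd.Germ
import Vale.Agent.P011.H775.Odd.TopNorm
import Vale.Agent.P011.H775.Odd.TopMod

/-!
# The topological inputs of the transfer

* `exists_rd`: a homomorphism near one for the topology of a family of ultrametric absolute values
  is of the form asked for in the pivot sum.
* `kapK`: the components of an element of `K` in powers of `c` with coefficients in `K ^ q`, from
  those of the elements of `k`, with their continuity.
-/

open Module Filter Topology

set_option linter.unusedSectionVars false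
set_option linter.style.haveILetI false

namespace Vale.Agent.P011.H209.Insep

open Vale.Agent.P011.H605.Odd
open Vale.Agent.P011.H775.Top

section rd

variable {k D : Type} [Field k] [DivisionRing D] [Algebra k D] {ι κ : Type*}
  [Fintype ι] [Fintype κ] [Nonempty ι] (B : Basis κ k D) (a : ι → AbsoluteValue k ℝ)

/-- The small elements. -/
def ball (ha : ∀ i, IsNonarchimedean (a i)) {δ : ℝ} (hδ : 0 < δ) : AddSubgroup D where
  carrier := {x | pn B a x < δ}
  add_mem' h1 h2 := (pn_add_le_max B a ha _ _).trans_lt (max_lt h1 h2)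
  zero_mem' := by
    change pn B a 0 < δ
    rw [pn_zero]
    exact hδ
  neg_mem' {x} h := by
    change pn B a (-x) < δ
    rw [pn_neg]
    exact h

theorem mem_ball {ha : ∀ i, IsNonarchimedean (a i)} {δ : ℝ} {hδ : 0 < δ} {x : D} :
    x ∈ ball B a ha hδ ↔ pn B a x < δ := Iff.rfl

/-- **A homomorphism near one is additive on an open ideal.** -/
theorem exists_rd (ha : ∀ i, IsNonarchimedean (a i)) {E : Type} [AddCommGroup E] {Ψ : D → E}
    {V : Set D} (hV : V ∈ @nhds D (topD B a) 1)
    (h : ∀ g ∈ V, ∀ g' ∈ V, Ψ (g * g') = Ψ g + Ψ g') :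
    ∃ (O : Subring D) (I : AddSubgroup D), Rd O I Ψ ∧ @IsOpen D (topD B a) (I : Set D) := by
  obtain ⟨ε, hε, hVε⟩ := (mem_nhds_iff_pn B a).mp hV
  have hδ0 : 0 < min ε 1 := lt_min hε one_pos
  set δ : ℝ := min ε 1 with hδ
  have hδ1 : δ ≤ 1 := min_le_right _ _
  let I := ball B a ha hδ0
  have hlt : ∀ x ∈ I, pn B a x < 1 := fun x hx => lt_of_lt_of_le hx hδ1
  have hm : ∀ x ∈ I, ∀ y ∈ I, x * y ∈ I := by
    intro x hx y hy
    refine (pn_mul_le B a x y).trans_lt ?_
    have h1 : pn B a x * pn B a y ≤ pn B a x * 1 :=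
      mul_le_mul_of_nonneg_left (hlt y hy).le (pn_nonneg B a x)
    rw [mul_one] at h1
    exact h1.trans_lt hx
  have hne : ∀ x ∈ I, 1 + x ≠ 0 := by
    intro x hx h0
    have h1 : x = -1 := by rw [eq_neg_iff_add_eq_zero, add_comm]; exact h0
    have h2 := hlt x hx
    rw [h1, pn_neg, pn_one] at h2
    exact lt_irrefl _ h2
  have hinv : ∀ x ∈ I, (1 + x)⁻¹ - 1 ∈ I := by
    intro x hx
    set y := (1 + x)⁻¹ - 1 with hy
    have h1 : y = -x + -(x * y) := by
      have h2 : (1 + x) * (1 + y) = 1 := by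
        rw [hy, add_sub_cancel, mul_inv_cancel₀ (hne x hx)]
      have h3 : (1 + x) * (1 + y) = 1 + (x + (y + x * y)) := by noncomm_ring
      rw [h3] at h2
      have h4 : x + (y + x * y) = 0 := left_eq_add.mp h2.symm
      have h5 : y = -x + -(x * y) + (x + (y + x * y)) := by abel
      rw [h4, add_zero] at h5
      exact h5
    have h2 : pn B a y ≤ max (pn B a x) (pn B a x * pn B a y) := by
      conv_lhs => rw [h1]
      refine (pn_add_le_max B a ha _ _).trans ?_
      rw [pn_neg, pn_neg]
      exact max_le_max le_rfl (pn_mul_le B a x y)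
    change pn B a y < δ
    rcases le_total (pn B a x * pn B a y) (pn B a x) with h3 | h3
    · rw [max_eq_left h3] at h2
      exact h2.trans_lt hx
    · rw [max_eq_right h3] at h2
      have h4 := hlt x hx
      have h5 := pn_nonneg B a y
      have h6 : pn B a y = 0 := by nlinarith
      rw [h6]
      exact hδ0
  have hadd : ∀ x ∈ I, ∀ y ∈ I, Ψ ((1 + x) * (1 + y)) = Ψ (1 + x) + Ψ (1 + y) := by
    intro x hx y hy
    refine h _ (hVε _ ?_) _ (hVε _ ?_)
    · rw [add_sub_cancel_left]
      exact lt_of_lt_of_le hx (min_le_left _ _)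
    · rw [add_sub_cancel_left]
      exact lt_of_lt_of_le hy (min_le_left _ _)
  refine ⟨zI I hm, I, rd_of_hom I hm Ψ hne hinv hadd, ?_⟩
  letI := topD B a
  rw [isOpen_iff_mem_nhds]
  intro x hx
  refine (mem_nhds_iff_pn B a).mpr ⟨δ, hδ0, fun y hy => ?_⟩
  have h1 : y = (y - x) + x := by abel
  rw [h1]
  exact I.add_mem hy hx

end rd

section kap

variable {k K : Type} [Field k] [Field K] [Algebra k K] {ι κ : Type*} [Fintype ι] [Fintype κ]
  [Nonempty ι] (B : Basis κ k K) (a : ι → AbsoluteValue k ℝ) {q r : ℕ}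

/-- Additive bounded maps are continuous. -/
theorem continuous_add {s : k → k} (hadd : ∀ x y, s (x + y) = s x + s y) {C : ℝ} (hC : 0 < C)
    (hb : ∀ i x, a i (s x) ^ q ≤ C * a i x) :
    @Continuous k k (topk a) (topk a) s := by
  have hsub : ∀ x y, s (x - y) = s x - s y := by
    intro x y
    have h1 := hadd (x - y) y
    rw [sub_add_cancel] at h1
    rw [h1, add_sub_cancel_right]
  letI := topk a
  refine continuous_iff_continuousAt.mpr fun x₀ => ?_
  intro U hU
  obtain ⟨ε, hε, hUε⟩ := (topk_mem_nhds_iff a).mp hU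
  rw [Filter.mem_map]
  refine (topk_mem_nhds_iff a).mpr ⟨ε ^ q / C, by positivity, fun x hx => ?_⟩
  refine hUε _ fun i => ?_
  rw [← hsub]
  have h1 := hb i (x - x₀)
  have h2 : C * a i (x - x₀) < ε ^ q := by
    have h3 := hx i
    rwa [lt_div_iff₀ hC, mul_comm] at h3
  exact lt_of_pow_lt_pow_left₀ q hε.le (h1.trans_lt h2)

/-- The components of an element of `K`. -/
noncomputable def kapK (B' : Basis (Fin r) k K) (Θ : Fin r → K) (s : k → k) (x : K) : K :=
  ∑ j, s (B'.repr x j) • Θ j

theorem continuous_kapK (B' : Basis (Fin r) k K) (Θ : Fin r → K) {s : k → k}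
    (hs : @Continuous k k (topk a) (topk a) s) :
    @Continuous K K (topD B a) (topD B a) (kapK B' Θ s) := by
  letI := topk a
  letI := topD B a
  haveI := isTopologicalAddGroup B a
  unfold kapK
  refine continuous_finsetSum _ fun j _ => ?_
  have h1 : Continuous (B'.coord j) :=
    continuous_lin B (Basis.singleton Unit k) a (B'.coord j)
  have h2 : Continuous (LinearMap.toSpanSingleton k K (Θ j)) :=
    continuous_lin (Basis.singleton Unit k) B a (LinearMap.toSpanSingleton k K (Θ j))
  exact h2.comp (hs.comp h1)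

variable {p e : ℕ} [Fact p.Prime] [CharP k p]

theorem kapK_sum (B' : Basis (Fin r) k K) (Θ : Fin r → K) (hB : ∀ j, B' j = Θ j ^ p ^ e)
    {c : k} {s : Fin (p ^ e) → k → k}
    (hs : ∀ b, b = ∑ i : Fin (p ^ e), s i b ^ p ^ e * c ^ (i : ℕ)) (x : K) :
    x = ∑ i : Fin (p ^ e), algebraMap k K c ^ (i : ℕ) * kapK B' Θ (s i) x ^ p ^ e := by
  have hch : CharP K p := charP_of_injective_algebraMap (algebraMap k K).injective p
  have h1 : ∀ i : Fin (p ^ e), kapK B' Θ (s i) x ^ p ^ e =
      ∑ j, algebraMap k K (s i (B'.repr x j) ^ p ^ e) * B' j := by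
    intro i
    unfold kapK
    rw [sum_pow_char_pow]
    refine Finset.sum_congr rfl fun j _ => ?_
    rw [Algebra.smul_def, mul_pow, hB, map_pow]
  simp only [h1, Finset.mul_sum]
  rw [Finset.sum_comm]
  conv_lhs => rw [← B'.sum_repr x]
  refine Finset.sum_congr rfl fun j _ => ?_
  conv_lhs => rw [hs (B'.repr x j)]
  rw [Algebra.smul_def, map_sum, Finset.sum_mul]
  refine Finset.sum_congr rfl fun i _ => ?_
  rw [map_mul, map_pow (algebraMap k K) c]
  ring

theorem kapK_zero (B' : Basis (Fin r) k K) (Θ : Fin r → K) (hB : ∀ j, B' j = Θ j ^ p ^ e)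
    (hΘ : ∀ x : K, ∃ y : Fin r → k, x = ∑ j, y j • Θ j) {s : Fin (p ^ e) → k → k}
    (hs0 : ∀ b i, s i (b ^ p ^ e) = if (i : ℕ) = 0 then b else 0) (x : K) (i : Fin (p ^ e)) :
    kapK B' Θ (s i) (x ^ p ^ e) = if (i : ℕ) = 0 then x else 0 := by
  have hch : CharP K p := charP_of_injective_algebraMap (algebraMap k K).injective p
  obtain ⟨y, rfl⟩ := hΘ x
  have h1 : ∀ j, B'.repr ((∑ j, y j • Θ j) ^ p ^ e) j = y j ^ p ^ e := by
    intro j
    have h2 : (∑ j, y j • Θ j) ^ p ^ e = ∑ j, y j ^ p ^ e • B' j := by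
      rw [sum_pow_char_pow]
      refine Finset.sum_congr rfl fun j _ => ?_
      rw [Algebra.smul_def, mul_pow, hB, ← map_pow, ← Algebra.smul_def]
    rw [h2, B'.repr_sum_self]
  unfold kapK
  simp only [h1, hs0]
  split_ifs
  · rfl
  · simp only [zero_smul, Finset.sum_const_zero]

end kap

end Vale.Agent.P011.H209.Insep
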