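import Vale.Agent.P011.H209.Insep.Gen
import Vale.Agent.P011.H209.Insep.Top
import Vale.Agent.P011.H209.Insep.Cram
import Vale.Agent.P011.H209.Insep.Comp
import Vale.Agent.P011.H90.Germ

/-!
# Homomorphisms near one over function fields: the prime equal to the characteristic
-/

open Module Filter Topology

set_option linter.unusedSectionVars false
set_option linter.style.haveILetI false

namespace Vale.Agent.P011.H209.Insep

open Vale.Agent.P011.H738 Vale.Agent.P011.H271 Vale.Agent.P011.H305 Vale.Agent.P011.W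
open Vale.Agent.P011.H279.Sq Vale.Agent.P011.H279.Art
open Vale.Agent.P011.H961 (SetG)
open Vale.Agent.P011.H605.Odd
open Vale.Agent.P011.H775.Top

variable {k K D : Type} [Field k] [Field K] [StarRing K] [DivisionRing D] [StarRing D]
  [Algebra k K] [Algebra k D] [Algebra K D] [IsScalarTower k K D] {n N : ℕ}

/-- A basis of `K` consisting of `q`-th powers. -/
theorem exists_basis_pow (hS : SetG k K D) (p e : ℕ) [Fact p.Prime] [CharP k p] :
    ∃ (Θ : Fin 2 → K) (B' : Basis (Fin 2) k K), (∀ j, B' j = Θ j ^ p ^ e) ∧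
      ∀ x : K, ∃ y : Fin 2 → k, x = ∑ j, y j • Θ j := by
  have hch : CharP K p := charP_of_injective_algebraMap (algebraMap k K).injective p
  obtain ⟨θ, hθ⟩ := hS.star_ne
  have hθ' : star (θ ^ p ^ e) ≠ θ ^ p ^ e := by
    intro h
    rw [star_pow] at h
    exact hθ (pow_inj p e h)
  have hli : LinearIndependent k (![1, θ ^ p ^ e] : Fin 2 → K) := by
    rw [LinearIndependent.pair_iff]
    intro s t hst
    have h1 : star (s • (1 : K) + t • θ ^ p ^ e) = s • (1 : K) + t • star (θ ^ p ^ e) := by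
      rw [star_add, Algebra.smul_def, Algebra.smul_def, Algebra.smul_def, star_mul', star_mul',
        hS.star_algebraMap, hS.star_algebraMap, star_one]
    rw [hst, star_zero] at h1
    have h2 : t • (star (θ ^ p ^ e) - θ ^ p ^ e) = 0 := by
      rw [smul_sub]
      have h3 : t • star (θ ^ p ^ e) - t • θ ^ p ^ e =
          (s • (1 : K) + t • star (θ ^ p ^ e)) - (s • (1 : K) + t • θ ^ p ^ e) := by abel
      rw [h3, ← h1, hst, sub_zero]
    have ht : t = 0 := (smul_eq_zero.mp h2).resolve_right (sub_ne_zero.mpr hθ')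
    refine ⟨?_, ht⟩
    rw [ht, zero_smul, add_zero] at hst
    exact (smul_eq_zero.mp hst).resolve_right one_ne_zero
  refine ⟨![1, θ], basisOfLinearIndependentOfCardEqFinrank hli (by
    rw [Fintype.card_fin, hS.rank]), ?_, ?_⟩
  · intro j
    rw [coe_basisOfLinearIndependentOfCardEqFinrank]
    fin_cases j
    · simp
    · simp
  · intro x
    obtain ⟨a, b, rfl⟩ := hS.exists_coord hθ x
    refine ⟨![a, b], ?_⟩
    rw [Fin.sum_univ_two]
    simp [Algebra.smul_def]

/-- **Homomorphisms near one over function fields, the prime equal to the characteristic.** -/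
theorem rw_p [GFF k] (hS : SetG k K D) {p e m : ℕ} [Fact p.Prime] [CharP k p]
    (hnm : n = p ^ e * m) (hdeg : finrank K D = n ^ 2)
    (B : Basis (Fin N) k D) (T : Finset (Place k)) [hT : Nonempty T]
    {E : Type} [AddCommGroup E] {Ψ : D → E}
    (hΨ : ∃ V ∈ @nhds D (topD B fun v : T => (v : Place k).abv) 1,
      ∀ g ∈ V, ∀ g' ∈ V, Ψ (g * g') = Ψ g + Ψ g') :
    ∀ᶠ g in @nhds D (topD B fun v : T => (v : Place k).abv) 1, HasNrd K n g 1 → m • Ψ g = 0 := by
  classical
  have := hS.fin
  have := hS.cen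
  have := hS.finK
  have hch : CharP K p := charP_of_injective_algebraMap (algebraMap k K).injective p
  have hn0 : 0 < n := deg_pos hdeg
  let a : T → AbsoluteValue k ℝ := fun v => (v : Place k).abv
  have ha : ∀ v, IsNonarchimedean (a v) := fun v => (v : Place k).nonarch
  -- the uniformizer and the root
  have hbf := bad_finiteG hS hn0.ne' hdeg
  obtain ⟨c, hc⟩ := exists_unif_fam (T ∪ hbf.toFinset)
  have hcT : ∀ v ∈ T, Uni v c := fun v hv => hc v (Finset.mem_union_left _ hv)
  have hcB : ∀ v ∈ Bad k K D n, Uni v c := fun v hv =>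
    hc v (Finset.mem_union_right _ (hbf.mem_toFinset.mpr hv))
  obtain ⟨v0, hv0⟩ := id hT
  have hc0 : c ≠ 0 := (hcT v0 hv0).1
  obtain ⟨L, _, _, j, x, hL, hx⟩ := exists_root_field hS hdeg hcB
  have hξ : (x ^ m) ^ p ^ e = algebraMap K L (algebraMap k K c) := by
    rw [← pow_mul, mul_comm m, ← hnm, hx]
  obtain ⟨s0, hsep, hs0⟩ := exists_sep_gen (K := K) (D := D) hdeg
  -- the components
  obtain ⟨κ, hadd, hsum, hzero, hbd⟩ := exists_comp (k := k) (p := p) (e := e) a ha hT hc0
    (fun v => (hcT v v.2).2.1) (fun v => (hcT v v.2).2.2)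
  obtain ⟨Θ, B', hB', hΘ⟩ := exists_basis_pow hS p e
  letI tk : TopologicalSpace k := topk a
  letI tK : TopologicalSpace K := topD B' a
  letI tD : TopologicalSpace D := topD B a
  haveI := isTopologicalDivisionRing B a
  haveI := t2 B a
  haveI := isTopologicalDivisionRing B' a
  haveI := t2 B' a
  have hκ : ∀ i, @Continuous k k (topk a) (topk a) (κ i) := by
    intro i
    obtain ⟨C, hC, hCv⟩ : ∃ C : ℝ, 0 < C ∧ ∀ v : T, ((a v c) ^ (i : ℕ))⁻¹ ≤ C := by
      refine ⟨∑ v : T, ((a v c) ^ (i : ℕ))⁻¹, ?_, fun v => ?_⟩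
      · refine Finset.sum_pos (fun v _ => ?_) ⟨⟨v0, hv0⟩, Finset.mem_univ _⟩
        have := (a v).pos hc0
        positivity
      · refine Finset.single_le_sum (f := fun v : T => ((a v c) ^ (i : ℕ))⁻¹) (fun v _ => ?_)
          (Finset.mem_univ v)
        have := (a v).nonneg c
        positivity
    refine continuous_add a (q := p ^ e) (hadd i) hC fun v b => ?_
    have h1 : a v (κ i b) ^ p ^ e * a v c ^ (i : ℕ) ≤ a v b := hbd v i b
    have h2 : 0 < a v c ^ (i : ℕ) := pow_pos ((a v).pos hc0) _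
    have h3 : a v (κ i b) ^ p ^ e ≤ (a v c ^ (i : ℕ))⁻¹ * a v b := by
      rw [inv_mul_eq_div, le_div_iff₀ h2]
      exact h1
    exact h3.trans (mul_le_mul_of_nonneg_right (hCv v) ((a v).nonneg b))
  have hlt : ∀ v : T, a v c < 1 := fun v => (hcT v v.2).2.1
  have hne : (𝓝[≠] (0 : K)).NeBot := by
    have h1 := tendsto_pow_alg B' a hlt
    have h2 : Tendsto (fun i : ℕ => algebraMap k K c ^ i) atTop (𝓝[≠] 0) := by
      refine tendsto_nhdsWithin_iff.mpr ⟨?_, Eventually.of_forall fun i => ?_⟩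
      · refine h1.congr fun i => ?_
        rfl
      · exact pow_ne_zero _ ((_root_.map_ne_zero _).mpr hc0)
    exact h2.neBot
  have hcont : Continuous (algebraMap K D) :=
    continuous_lin B' B a (IsScalarTower.toAlgHom k K D).toLinearMap
  obtain ⟨V, hV, hVΨ⟩ := hΨ
  obtain ⟨O, I, hRd, hI⟩ := exists_rd B a ha hV hVΨ
  have hinv : ∀ g : D, g ≠ 0 → ∀ᶠ u in 𝓝 (1 : D), Ψ (g * u * g⁻¹) = Ψ u := by
    intro g hg
    have h1 := H90.germ_conj_div (D := D) (E := Multiplicative E) (fun O hO => by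
      have h2 := tendsto_pow_alg B a hlt
      obtain ⟨i, hi⟩ := (h2.eventually hO).exists
      refine ⟨_, hi, ?_, fun x => ?_⟩
      · first
          | exact (_root_.map_ne_zero _).mpr (pow_ne_zero _ hc0)
          | exact pow_ne_zero _ ((_root_.map_ne_zero _).mpr hc0)
      · first
          | exact Algebra.commutes _ x
          | (rw [← map_pow]; exact Algebra.commutes _ x))
      (fun x => Multiplicative.ofAdd (Ψ x)) (by
        filter_upwards [prod_mem_nhds hV hV] with q hq
        rw [hVΨ _ hq.1 _ hq.2, ofAdd_add]) hg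
    exact h1.mono fun u hu => Multiplicative.ofAdd.injective hu
  have hdegle : ∀ y : D, (minpoly K y).natDegree ≤ n := by
    obtain ⟨b, hb⟩ := exists_lb hdeg hn0 hL j
    obtain ⟨R, -⟩ := hb.exists_rho
    exact fun y => natDegree_le hn0 R y
  have hlin : ∀ l : D →ₗ[K] K, Continuous l := fun l =>
    continuous_lin B B' a (l.restrictScalars k)
  exact rwp hcont hnm hn0 hdeg hL j hξ (fun i => kapK B' Θ (κ i))
    (fun i => continuous_kapK B' a B' Θ (hκ i)) (fun b => kapK_sum B' Θ hB' hsum b)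
    (fun b i => kapK_zero B' Θ hB' hΘ hzero b i)
    (fun z hz => cramer hlin hdegle hz) hsep hs0 hRd hI hinv

end Vale.Agent.P011.H209.Insep
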