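import Vale.Agent.P011.H209.Insep.Root
import Vale.Agent.P011.H605.Odd.Germ
import Vale.Agent.P011.W.Nrd

/-!
# Homomorphisms near one in degree divisible by the characteristic

`D` central of degree `n = p ^ a * m` over `K`, `p` the characteristic.  A homomorphism `Ψ` near one
satisfies `m • Ψ g = 0` for every `g` near one of reduced norm one.  The proof is a purely
inseparable transfer: multiplication by the matrix of a root `ξ` of `c`.
-/

open Module Matrix Filter Topology Polynomial
open scoped IntermediateField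

namespace Vale.Agent.P011.H209.Insep

open Vale.Agent.P011.W (HasNrd)
open Vale.Agent.P011.H605.Odd

section field

variable {K D : Type} [Field K] [DivisionRing D] [Algebra K D] [FiniteDimensional K D]

/-- The field generated by one element. -/
theorem exists_sub (w : D) : ∃ (F : Type) (_ : Field F) (_ : Algebra K F)
    (_ : FiniteDimensional K F) (φ : F →ₐ[K] D) (x : F), φ x = w ∧ K⟮x⟯ = ⊤ := by
  have hint : IsIntegral K w := IsIntegral.of_finite K w
  have _ : Fact (Irreducible (minpoly K w)) := ⟨minpoly.irreducible hint⟩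
  have hfin : FiniteDimensional K (AdjoinRoot (minpoly K w)) :=
    (AdjoinRoot.powerBasis (minpoly.ne_zero hint)).finite
  let i : AdjoinRoot (minpoly K w) →ₐ[K] D :=
    Ideal.Quotient.liftₐ (Ideal.span {minpoly K w}) (Polynomial.aeval w) (by
      intro a ha
      obtain ⟨b, rfl⟩ := Ideal.mem_span_singleton'.mp ha
      rw [map_mul, minpoly.aeval, mul_zero])
  have hi : ∀ P : K[X], i (AdjoinRoot.mk (minpoly K w) P) = aeval w P := fun P => rfl
  refine ⟨AdjoinRoot (minpoly K w), inferInstance, inferInstance, hfin, i,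
    AdjoinRoot.root (minpoly K w), ?_, ?_⟩
  · rw [← AdjoinRoot.mk_X, hi, aeval_X]
  · exact IntermediateField.adjoin_root_eq_top _

variable {p n : ℕ} [Fact p.Prime] [CharP K p]

/-- Purely inseparable powers of a separable generator. -/
theorem exists_base (a : ℕ) {s0 : D} (hsep : (minpoly K s0).Separable)
    (hdeg : (minpoly K s0).natDegree = n) {r : K} (hr : r ≠ 0) :
    (∃ τ : Fin n → K, 1 + r • s0 = ∑ j, τ j • (1 + r • s0) ^ (p ^ a * (j : ℕ))) ∧
    LinearIndependent K fun j : Fin n => ((1 + r • s0) ^ p ^ a) ^ (p ^ a * (j : ℕ)) := by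
  obtain ⟨F, _, _, _, φ, x, hx, hxt⟩ := exists_sub (K := K) s0
  have hφ : Function.Injective φ := φ.toRingHom.injective
  have hmin : minpoly K s0 = minpoly K x := by
    rw [← hx]; exact minpoly.algHom_eq φ hφ x
  have hxs : IsSeparable K x := by
    change (minpoly K x).Separable
    rw [← hmin]; exact hsep
  have hF : finrank K F = n := by
    rw [← IntermediateField.finrank_top', ← hxt,
      IntermediateField.adjoin.finrank (IsIntegral.of_finite K x), ← hmin, hdeg]
  have hsepF : Algebra.IsSeparable K F := by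
    have h1 := (IntermediateField.isSeparable_adjoin_simple_iff_isSeparable K F).mpr hxs
    rw [hxt] at h1
    exact (AlgEquiv.Algebra.isSeparable_iff IntermediateField.topEquiv).mp h1
  let t : F := 1 + r • x
  have ht : φ t = 1 + r • s0 := by
    change φ (1 + r • x) = _
    rw [map_add, map_one, map_smul, hx]
  have htt : K⟮t⟯ = ⊤ := by
    rw [eq_top_iff, ← hxt, IntermediateField.adjoin_simple_le_iff]
    have h1 : x = r⁻¹ • (t - 1) := by
      change x = r⁻¹ • (1 + r • x - 1)
      rw [add_sub_cancel_left, smul_smul, inv_mul_cancel₀ hr, one_smul]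
    rw [h1]
    exact K⟮t⟯.smul_mem (K⟮t⟯.sub_mem (IntermediateField.mem_adjoin_simple_self K t) K⟮t⟯.one_mem)
  have hpow : ∀ k : ℕ, LinearIndependent K fun j : Fin n => (t ^ p ^ k) ^ (j : ℕ) := by
    intro k
    have h1 : K⟮t ^ p ^ k⟯ = ⊤ := by
      rw [← IntermediateField.adjoin_simple_eq_adjoin_pow_expChar_pow_of_isSeparable' K F t p k,
        htt]
    have h2 : (minpoly K (t ^ p ^ k)).natDegree = n := by
      rw [← IntermediateField.adjoin.finrank (IsIntegral.of_finite K _), h1,
        IntermediateField.finrank_top', hF]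
    have h3 := linearIndependent_pow (K := K) (t ^ p ^ k)
    rw [h2] at h3
    exact h3
  rw [← ht]
  refine ⟨?_, ?_⟩
  · have hne : Nonempty (Fin n) := by
      by_contra h0
      rw [not_nonempty_iff, ← not_nonempty_iff] at h0
      have h1 : 0 < finrank K F := finrank_pos
      rw [hF] at h1
      exact h0 ⟨⟨0, h1⟩⟩
    let B := basisOfLinearIndependentOfCardEqFinrank (hpow a) (by rw [Fintype.card_fin, hF])
    have h1 := B.sum_repr t
    refine ⟨fun j => B.repr t j, ?_⟩
    have h2 := congrArg φ h1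
    rw [map_sum] at h2
    refine h2.symm.trans (Finset.sum_congr rfl fun j _ => ?_)
    have h3 : B j = (t ^ p ^ a) ^ (j : ℕ) := by
      rw [coe_basisOfLinearIndependentOfCardEqFinrank]
    rw [map_smul, h3, map_pow, map_pow, ← pow_mul]
  · have h1 := hpow (a + a)
    have h2 := h1.map' φ.toLinearMap (LinearMap.ker_eq_bot.mpr hφ)
    have h3 : (φ.toLinearMap ∘ fun j : Fin n => (t ^ p ^ (a + a)) ^ (j : ℕ)) =
        fun j : Fin n => (φ t ^ p ^ a) ^ (p ^ a * (j : ℕ)) := by
      funext j
      change φ ((t ^ p ^ (a + a)) ^ (j : ℕ)) = _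
      rw [map_pow, map_pow, pow_add, pow_mul, ← pow_mul]
    rw [h3] at h2
    exact h2

end field

theorem psi_pow {D E : Type} [DivisionRing D] [AddCommGroup E] {O : Subring D}
    {I : AddSubgroup D} {Ψ : D → E} (h : Rd O I Ψ) {u : D} (hu : u - 1 ∈ I) (k : ℕ) :
    u ^ k - 1 ∈ I ∧ Ψ (u ^ k) = k • Ψ u := by
  induction k with
  | zero => simp [h.psi_one, I.zero_mem]
  | succ k ih =>
    rw [pow_succ, h.add' ih.1 hu, ih.2, add_smul, one_smul]
    exact ⟨h.mulI ih.1 hu, rfl⟩

/-- **Homomorphisms near one in degree divisible by the characteristic.** -/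
theorem rwp {K D L E : Type} [Field K] [DivisionRing D] [Algebra K D] [FiniteDimensional K D]
    [Algebra.IsCentral K D] [Field L] [Algebra K L] [AddCommGroup E]
    [TopologicalSpace K] [TopologicalSpace D] [IsTopologicalDivisionRing D] [(𝓝[≠] (0 : K)).NeBot]
    (hcont : Continuous (algebraMap K D)) {p a m n : ℕ} [Fact p.Prime] [CharP K p]
    (hnm : n = p ^ a * m) (hn : 0 < n) (hD : finrank K D = n ^ 2) (hL : finrank K L = n)
    (ι : L →ₐ[K] D) {ξ : L} {c : K} (hξ : ξ ^ p ^ a = algebraMap K L c)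
    (s : Fin (p ^ a) → K → K) (hs : ∀ i, Continuous (s i))
    (hsum : ∀ b, b = ∑ i : Fin (p ^ a), c ^ (i : ℕ) * s i b ^ p ^ a)
    (hs0 : ∀ b i, s i (b ^ p ^ a) = if (i : ℕ) = 0 then b else 0)
    (hcr : ∀ z : D, LinearIndependent K (fun j : Fin n => z ^ (p ^ a * (j : ℕ))) →
      ∃ e : Fin n → D → K, (∀ j, ContinuousAt (e j) z) ∧
        ∀ᶠ z' in 𝓝 z, z' = ∑ j, e j z' • z' ^ (p ^ a * (j : ℕ)))
    {s0 : D} (hsep : (minpoly K s0).Separable) (hdeg : (minpoly K s0).natDegree = n)
    {O : Subring D} {I : AddSubgroup D} {Ψ : D → E} (h : Rd O I Ψ) (hI : IsOpen (I : Set D))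
    (hinv : ∀ g : D, g ≠ 0 → ∀ᶠ u in 𝓝 (1 : D), Ψ (g * u * g⁻¹) = Ψ u) :
    ∀ᶠ g in 𝓝 (1 : D), HasNrd K n g 1 → m • Ψ g = 0 := by
  obtain ⟨b, hb⟩ := exists_lb hD hn hL ι
  have hcent : ∀ d : D, (∀ l, d * ι l = ι l * d) → ∃ r, d = ι r := fun d hd =>
    self_cent hD hn hL ι hd
  have hfinL : FiniteDimensional K L := Module.finite_of_finrank_pos (by rw [hL]; exact hn)
  let f : Basis (Fin n) K L := Module.finBasisOfFinrankEq K L hL
  obtain ⟨R, hR⟩ := hb.exists_rho
  obtain ⟨P', hP1, hP2⟩ := hb.exists_inv hcent f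
  let U : Matrix (Fin n) (Fin n) D → Prop := fun X =>
    ps Ψ n (P ι b f * X * P') = ps Ψ n X ∧ Cg I X ∧ Cg I (P ι b f * X * P')
  have hU : ∀ᶠ X in 𝓝 (1 : Matrix (Fin n) (Fin n) D), U X := by
    have h1 := ps_germ_conj h hI hinv (P ι b f) P' hP1
      (tendsto_id (x := 𝓝 (1 : Matrix (Fin n) (Fin n) D)))
    have h2 := ev_cg hI (tendsto_id (x := 𝓝 (1 : Matrix (Fin n) (Fin n) D)))
    have h3 : Tendsto (fun X => P ι b f * X * P') (𝓝 (1 : Matrix (Fin n) (Fin n) D)) (𝓝 1) := by
      have hc : Continuous fun T : Matrix (Fin n) (Fin n) D => P ι b f * T * P' :=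
        (continuous_const.matrix_mul continuous_id).matrix_mul continuous_const
      have h4 := hc.tendsto 1
      rwa [mul_one, hP2] at h4
    exact h1.and (h2.and (ev_cg hI h3))
  -- the base point
  have hscal : Tendsto (fun d : D => d • (1 : Matrix (Fin n) (Fin n) D)) (𝓝 1) (𝓝 1) := by
    have hc : Continuous fun d : D => d • (1 : Matrix (Fin n) (Fin n) D) :=
      continuous_id.smul continuous_const
    have h4 := hc.tendsto 1
    rwa [one_smul] at h4
  have hUt : ∀ᶠ d in 𝓝 (1 : D), ∀ᶠ X in 𝓝 (d • (1 : Matrix (Fin n) (Fin n) D)), U X :=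
    hscal.eventually (eventually_eventually_nhds.mpr hU)
  have hIt : ∀ᶠ d in 𝓝 (1 : D), d ^ p ^ a - 1 ∈ I := by
    refine ev_mem_one hI ?_
    have h4 := (continuous_pow (M := D) (p ^ a)).tendsto 1
    rwa [one_pow] at h4
  have hlam : Tendsto (fun r : K => 1 + r • s0) (𝓝[≠] 0) (𝓝 1) := by
    have hc : Continuous fun r : K => 1 + r • s0 := by
      simp only [Algebra.smul_def]
      exact continuous_const.add (hcont.mul continuous_const)
    have h4 := hc.tendsto 0
    rw [zero_smul, add_zero] at h4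
    exact h4.mono_left nhdsWithin_le_nhds
  obtain ⟨r, ⟨hr1, hr2⟩, hr0⟩ :=
    ((hlam.eventually (hUt.and hIt)).and self_mem_nhdsWithin).exists
  obtain ⟨⟨τ, hτ⟩, hli⟩ := exists_base (n := n) (p := p) a hsep hdeg (r := r) hr0
  set t : D := 1 + r • s0 with htdef
  set w0 : D := t ^ p ^ a with hw0
  obtain ⟨e, he, hew⟩ := hcr w0 hli
  have he0 : ∀ j, e j w0 = τ j ^ p ^ a := by
    have h1 : w0 = ∑ j, e j w0 • w0 ^ (p ^ a * (j : ℕ)) := hew.self_of_nhds
    have h2 : w0 = ∑ j, τ j ^ p ^ a • w0 ^ (p ^ a * (j : ℕ)) := by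
      have h3 := frob_sum (k := K) p a t Finset.univ τ (fun j : Fin n => p ^ a * (j : ℕ))
      rw [← hτ] at h3
      refine h3.trans (Finset.sum_congr rfl fun j _ => ?_)
      rw [hw0, ← pow_mul]
      congr 2
      ring
    have h3 : ∑ j, (e j w0 - τ j ^ p ^ a) • w0 ^ (p ^ a * (j : ℕ)) = 0 := by
      simp only [sub_smul, Finset.sum_sub_distrib]
      rw [← h1, ← h2, sub_self]
    intro j
    exact sub_eq_zero.mp (Fintype.linearIndependent_iff.mp hli _ h3 j)
  -- the two roots
  let Y1 : D → Matrix (Fin n) (Fin n) D := fun w =>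
    ∑ i : Fin (p ^ a), ∑ j : Fin n, (s i (e j w) • w ^ (j : ℕ)) •
      (Algebra.leftMulMatrix f (ξ ^ (i : ℕ))).map (algebraMap K D)
  let Y2 : D → Matrix (Fin n) (Fin n) L := fun w =>
    ∑ i : Fin (p ^ a), ∑ j : Fin n, ξ ^ (i : ℕ) • R (s i (e j w) • w ^ (j : ℕ))
  have hY12 : ∀ w, P ι b f * Y1 w * P' = (Y2 w).map ι := by
    intro w
    have h1 : P ι b f * Y1 w = (Y2 w).map ι * P ι b f :=
      inter_root f hR ξ (fun i j => s i (e j w)) w
    rw [h1, Matrix.mul_assoc, hP2, Matrix.mul_one]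
  have hY1t : Tendsto Y1 (𝓝 w0) (𝓝 (t • (1 : Matrix (Fin n) (Fin n) D))) := by
    have h1 : Y1 w0 = t • (1 : Matrix (Fin n) (Fin n) D) := by
      have h2 : ∀ i : Fin (p ^ a), ∑ j : Fin n, (s i (e j w0) • w0 ^ (j : ℕ)) •
          (Algebra.leftMulMatrix f (ξ ^ (i : ℕ))).map (algebraMap K D) =
          if (i : ℕ) = 0 then t • (1 : Matrix (Fin n) (Fin n) D) else 0 := by
        intro i
        simp only [he0, hs0]
        by_cases hi : (i : ℕ) = 0
        · simp only [hi, if_true, pow_zero, map_one]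
          rw [← Finset.sum_smul]
          congr 1
          · rw [hτ]
            refine Finset.sum_congr rfl fun j _ => ?_
            rw [hw0, ← pow_mul]
          · ext k l
            rw [Matrix.map_apply, Matrix.one_apply, Matrix.one_apply]
            split_ifs
            · exact map_one _
            · exact map_zero _
        · simp only [hi, if_false, zero_smul, Finset.sum_const_zero]
      change ∑ i : Fin (p ^ a), ∑ j : Fin n, (s i (e j w0) • w0 ^ (j : ℕ)) •
          (Algebra.leftMulMatrix f (ξ ^ (i : ℕ))).map (algebraMap K D) = _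
      rw [Finset.sum_congr rfl fun i _ => h2 i,
        Finset.sum_eq_single (⟨0, pow_pos (Fact.out : p.Prime).pos a⟩ : Fin (p ^ a))]
      · rw [if_pos rfl]
      · intro i _ hi
        rw [if_neg fun h0 => hi (Fin.ext h0)]
      · intro h0
        exact absurd (Finset.mem_univ _) h0
    rw [← h1]
    refine tendsto_finsetSum _ fun i _ => tendsto_finsetSum _ fun j _ => ?_
    refine Tendsto.smul ?_ tendsto_const_nhds
    simp only [Algebra.smul_def]
    exact ((hcont.tendsto _).comp (((hs i).tendsto _).comp (he j))).mul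
      ((continuous_pow (j : ℕ)).tendsto _)
  have hgood : ∀ᶠ w in 𝓝 w0, U (Y1 w) ∧ w - 1 ∈ I ∧
      w = ∑ j, e j w • w ^ (p ^ a * (j : ℕ)) := by
    refine (hY1t.eventually hr1).and (Filter.Eventually.and ?_ hew)
    have h1 : IsOpen ((fun w : D => w - 1) ⁻¹' (I : Set D)) :=
      hI.preimage (continuous_id.sub continuous_const)
    exact h1.mem_nhds hr2
  have key : ∀ w, (U (Y1 w) ∧ w - 1 ∈ I ∧ w = ∑ j, e j w • w ^ (p ^ a * (j : ℕ))) →
      m • Ψ w = Ψ (ι (Y2 w).det) ∧ (Y2 w).det ^ p ^ a = (R w).det := by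
    rintro w ⟨⟨u1, u2, u3⟩, hwI, hw⟩
    have hwd : w = ∑ j : Fin n, (∑ i : Fin (p ^ a), c ^ (i : ℕ) * s i (e j w) ^ p ^ a) •
        w ^ (p ^ a * (j : ℕ)) := by
      refine hw.trans (Finset.sum_congr rfl fun j _ => ?_)
      rw [← hsum]
    refine ⟨?_, det_root2 R hξ (fun i j => s i (e j w)) w hwd⟩
    obtain ⟨F, _, _, _, φ, x, hx, -⟩ := exists_sub (K := K) w
    let Y : Matrix (Fin n) (Fin n) F := ∑ i : Fin (p ^ a), ∑ j : Fin n,
      (s i (e j w) • x ^ (j : ℕ)) •
        (Algebra.leftMulMatrix f (ξ ^ (i : ℕ))).map (algebraMap K F)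
    have hY : Y.map φ = Y1 w := by
      have h2 := map_sum ((φ : F →+* D).mapMatrix (m := Fin n))
        (fun i : Fin (p ^ a) => ∑ j : Fin n, (s i (e j w) • x ^ (j : ℕ)) •
        (Algebra.leftMulMatrix f (ξ ^ (i : ℕ))).map (algebraMap K F)) Finset.univ
      refine h2.trans (Finset.sum_congr rfl fun i _ => ?_)
      refine (map_sum ((φ : F →+* D).mapMatrix (m := Fin n)) _ _).trans
        (Finset.sum_congr rfl fun j _ => ?_)
      ext k l
      change φ ((s i (e j w) • x ^ (j : ℕ)) *
        algebraMap K F (Algebra.leftMulMatrix f (ξ ^ (i : ℕ)) k l)) = _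
      rw [map_mul, map_smul, map_pow, hx, AlgHom.commutes]
      rfl
    have hdet : Y.det = x ^ m := by
      refine det_root1 f hξ hnm (fun i j => s i (e j w)) x ?_
      apply φ.toRingHom.injective
      change φ x = φ _
      rw [hx, map_sum]
      refine hwd.trans (Finset.sum_congr rfl fun j _ => ?_)
      rw [map_smul, map_pow, hx]
    have d1 := (ps_det h (φ : F →+* D) Y (by
      change Cg I (Y.map φ)
      rw [hY]; exact u2)).2
    have d2 := (ps_det h (ι : L →+* D) (Y2 w) (by
      change Cg I ((Y2 w).map ι)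
      rw [← hY12]; exact u3)).2
    change ps Ψ n (Y.map φ) = Ψ (φ Y.det) at d1
    change ps Ψ n ((Y2 w).map ι) = Ψ (ι (Y2 w).det) at d2
    rw [hdet, map_pow, hx, (psi_pow h hwI m).2, hY] at d1
    rw [← d1, ← d2, ← hY12, u1]
  have hmul : Tendsto (fun g : D => g * w0) (𝓝 1) (𝓝 w0) := by
    have hc : Continuous fun g : D => g * w0 := continuous_id.mul continuous_const
    have h1 := hc.tendsto 1
    rwa [one_mul] at h1
  filter_upwards [hmul.eventually hgood, ev_mem_one hI (tendsto_id (x := 𝓝 (1 : D)))] with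
    g hg hgI hN
  have hgI' : g - 1 ∈ I := hgI
  obtain ⟨k1, k2⟩ := key _ hg
  obtain ⟨k3, k4⟩ := key _ hgood.self_of_nhds
  have hdet : (Y2 (g * w0)).det = (Y2 w0).det := by
    have hchL : CharP L p := charP_of_injective_algebraMap (algebraMap K L).injective p
    apply pow_inj p a
    rw [k2, k4, map_mul, Matrix.det_mul, hN L R, map_one, one_mul]
  rw [hdet, ← k3, h.add' hgI' hr2, smul_add] at k1
  exact left_eq_add.mp (by rw [add_comm]; exact k1.symm)

end Vale.Agent.P011.H209.Insep
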