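import Vale.Agent.P011.H519.SepSplit
import Vale.Agent.P011.H279.RootG
import Vale.Agent.P011.H209.Insep.RWp

/-!
# The algebraic inputs of the transfer over function fields

* `exists_sep_gen`: a separable element of degree `n` in a central division algebra of degree `n`;
* `exists_root_field`: if `c` is a uniformizer at the bad places, then the field of the `n`-th root
  of `c` has degree `n` over `K` and embeds in `D`;
* `exists_unif_fam`: one element which is a uniformizer at finitely many places.
-/

set_option linter.unusedSectionVars false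

open Module Polynomial TensorProduct
open scoped IntermediateField

namespace Vale.Agent.P011.H209.Insep

open Vale.Agent.P011.H738 Vale.Agent.P011.H271 Vale.Agent.P011.H305 Vale.Agent.P011.W
open Vale.Agent.P011.H279.Sq Vale.Agent.P011.H279.Art
open Vale.Agent.P011.H961 (SetG)

theorem exists_sep_gen {K D : Type} [Field K] [DivisionRing D] [Algebra K D]
    [FiniteDimensional K D] [Algebra.IsCentral K D] {n : ℕ} (hD : finrank K D = n ^ 2) :
    ∃ s0 : D, (minpoly K s0).Separable ∧ (minpoly K s0).natDegree = n := by
  obtain ⟨L, _, _, hsep, hfin, hL, ⟨j⟩⟩ := H519.exists_separable_maximal (K := K) (D := D)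
  obtain ⟨x, hx⟩ := Field.exists_primitive_element K L
  have h1 : finrank K L = n := by
    rw [hD] at hL
    exact Nat.pow_left_injective (by norm_num : 2 ≠ 0) hL
  refine ⟨j x, ?_, ?_⟩
  · rw [minpoly.algHom_eq j j.toRingHom.injective]
    exact Algebra.IsSeparable.isSeparable K x
  · rw [minpoly.algHom_eq j j.toRingHom.injective,
      ← IntermediateField.adjoin.finrank (IsIntegral.of_finite K x), hx,
      IntermediateField.finrank_top', h1]

variable {k K D : Type} [Field k] [Field K] [StarRing K] [DivisionRing D] [StarRing D]
  [Algebra k K] [Algebra k D] [Algebra K D] [IsScalarTower k K D] {n : ℕ}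

/-- **The field of the `n`-th root.** -/
theorem exists_root_field [GFF k] (hS : SetG k K D) (hdeg : finrank K D = n ^ 2) {c : k}
    (hc : ∀ v ∈ Bad k K D n, Uni v c) :
    ∃ (L : Type) (_ : Field L) (_ : Algebra K L) (_ : L →ₐ[K] D) (x : L),
      finrank K L = n ∧ x ^ n = algebraMap K L (algebraMap k K c) := by
  have := hS.fin
  have := hS.cen
  have hn : n ≠ 0 := (deg_pos hdeg).ne'
  obtain ⟨y, hy, hmin, -⟩ := exists_nth_rootG hS hdeg hc
  obtain ⟨F, _, _, _, φ, x, hx, hxt⟩ := exists_sub (K := K) y
  have hφ : Function.Injective φ := φ.toRingHom.injective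
  refine ⟨F, inferInstance, inferInstance, φ, x, ?_, ?_⟩
  · rw [← IntermediateField.finrank_top', ← hxt,
      IntermediateField.adjoin.finrank (IsIntegral.of_finite K x), ← minpoly.algHom_eq φ hφ x, hx,
      hmin, natDegree_X_pow_sub_C]
  · apply hφ
    rw [map_pow, hx, hy, φ.commutes]

/-- One element which is a uniformizer at finitely many places. -/
theorem exists_unif_fam [GFF k] (S : Finset (Place k)) : ∃ c : k, ∀ v ∈ S, Uni v c := by
  classical
  choose π hπ using fun v : Place k => exists_uni v
  obtain ⟨q, hq⟩ := H167.RhoF.exists_notMem (k := k) S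
  obtain ⟨c, hc, -⟩ := H496.NumF.near_int_fam (S := ((S : Finset (Place k)) :
    Set (Place k))) (Finset.finite_toSet _) q (fun h => hq (Finset.mem_coe.mp h))
    (fun v => π v) (fun v => v.abv (π v)) (fun v _ => v.abv.pos (hπ v).1)
  exact ⟨c, fun v hv => (hπ v).near (hc v (Finset.mem_coe.mpr hv))⟩

end Vale.Agent.P011.H209.Insep
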