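import Vale.Agent.P011.H209.Insep.EndP
import Vale.Agent.P011.H271.Odd.RWB

/-!
# The input `RW` over function fields, for the characteristic
-/

open Module Filter Topology

set_option linter.unusedSectionVars false
set_option linter.style.haveILetI false

namespace Vale.Agent.P011.H209.Insep

open Vale.Agent.P011.H738 Vale.Agent.P011.H271 Vale.Agent.P011.H271.Odd
open Vale.Agent.P011.H775.Top
open Vale.Agent.P011.H961 (SetG)
open Vale.Agent.P011.W (HasNrd)

variable {k K D Ω : Type} [Field k] [Field K] [StarRing K] [DivisionRing D] [StarRing D]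
  [Algebra k K] [Algebra k D] [Algebra K D] [IsScalarTower k K D] [StarModule K D] {n N : ℕ}
  [Field Ω] [Algebra K Ω]

/-- **`RW` for the characteristic.** -/
theorem modRW_ins [GFF k] (hS : SetG k K D) (hdeg : finrank K D = n ^ 2)
    (f : D →ₐ[K] Matrix (Fin n) (Fin n) Ω) (B : Basis (Fin N) k D) (T : Finset (Place k))
    [Nonempty T] {R : D →* K} (hR : ∀ x, (f x).det = algebraMap K Ω (R x)) {l : ℕ}
    (hl : l.Prime) (hlk : (l : k) = 0) : ModRW f B T R l := by
  have := hS.fin
  have := hS.cen
  have : Fact l.Prime := ⟨hl⟩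
  have hch : CharP k l := by
    obtain ⟨p, hp⟩ := CharP.exists k
    have h1 : p ∣ l := (CharP.cast_eq_zero_iff k p l).mp hlk
    have h2 : p ≠ 1 := by
      rintro rfl
      have h3 : (1 : k) = 0 := by
        have h4 := CharP.cast_eq_zero k 1
        rwa [Nat.cast_one] at h4
      exact one_ne_zero h3
    have h3 : p = l := (hl.eq_one_or_self_of_dvd p h1).resolve_left h2
    rwa [← h3]
  haveI : Infinite K := by
    obtain ⟨v⟩ := Hey.nonempty_place k
    have := H698.infinite_of_place v
    exact Infinite.of_injective _ (algebraMap k K).injective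
  have hn0 : n ≠ 0 := (Vale.Agent.P011.W.deg_pos hdeg).ne'
  obtain ⟨e, m, hm, hnm⟩ := Nat.exists_eq_pow_mul_and_not_dvd hn0 l hl.ne_one
  refine modRW_of_germ f B ?_
  letI := topD B (af T)
  intro E _ e' _ Ψ hΨ
  refine ⟨m, ((Nat.Prime.coprime_iff_not_dvd hl).mpr hm).symm, ?_⟩
  have h1 := rw_p hS (p := l) (e := e) (m := m) hnm hdeg B T hΨ
  exact h1.mono fun x hx hRx => hx (hasNrd_one hdeg f hR hRx)

end Vale.Agent.P011.H209.Insep
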