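import Vale.Agent.P011.H209.Insep.Trans

/-!
# The two `q`-th roots

`q = p ^ a`, `p` the characteristic of `K`, `ξ ^ q = c ∈ K`, `w = ∑ b j w ^ (q j)` with
`b j = ∑ c ^ i (e i j) ^ q`.  Then `Y1 = ∑ (e i j w ^ j) ξ ^ i` (matrices over `D`, `ξ` the matrix of
the multiplication by `ξ`) is a `q`-th root of the scalar `w`, with determinant `w ^ m`, and
`Y2 = ∑ ξ ^ i R (e i j w ^ j)` is a `q`-th root of `R w` over `L`.
-/

open Module Matrix Polynomial

namespace Vale.Agent.P011.H209.Insep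

/-- Frobenius for a polynomial in one element. -/
theorem frob_sum {k A S : Type} [Field k] [Ring A] [Algebra k A] (p a : ℕ) [Fact p.Prime]
    [CharP k p] (z : A) (s : Finset S) (u : S → k) (e : S → ℕ) :
    (∑ i ∈ s, u i • z ^ e i) ^ p ^ a = ∑ i ∈ s, u i ^ p ^ a • z ^ (e i * p ^ a) := by
  have h1 : ∑ i ∈ s, u i • z ^ e i = aeval z (∑ i ∈ s, C (u i) * X ^ e i) := by
    rw [map_sum]
    exact Finset.sum_congr rfl fun i _ => by
      rw [map_mul, aeval_C, map_pow, aeval_X, Algebra.smul_def]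
  rw [h1, ← map_pow, sum_pow_char_pow, map_sum]
  exact Finset.sum_congr rfl fun i _ => by
    rw [mul_pow, map_mul, ← C_pow, aeval_C, ← pow_mul, map_pow (aeval z), aeval_X,
      Algebra.smul_def]

theorem pow_inj {F : Type} [Field F] (p a : ℕ) [Fact p.Prime] [CharP F p] {x y : F}
    (h : x ^ p ^ a = y ^ p ^ a) : x = y := by
  have h1 : (x - y) ^ p ^ a = 0 := by rw [sub_pow_char_pow, h, sub_self]
  exact sub_eq_zero.mp (pow_eq_zero_iff (pow_ne_zero a (Fact.out : p.Prime).ne_zero) |>.mp h1)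

section

variable {K L : Type} [Field K] [Field L] [Algebra K L] {n p a : ℕ} [Fact p.Prime] [CharP K p]

/-- **The root over a commutative field containing `w`.** -/
theorem det_root1 {F : Type} [Field F] [Algebra K F] (f : Basis (Fin n) K L) {ξ : L} {c : K}
    (hξ : ξ ^ p ^ a = algebraMap K L c) {m : ℕ} (hnm : n = p ^ a * m)
    (e : Fin (p ^ a) → Fin n → K) (w : F)
    (hw : w = ∑ j : Fin n, (∑ i : Fin (p ^ a), c ^ (i : ℕ) * e i j ^ p ^ a) • w ^ (p ^ a * (j : ℕ))) :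
    (∑ i : Fin (p ^ a), ∑ j : Fin n, (e i j • w ^ (j : ℕ)) •
      (Algebra.leftMulMatrix f (ξ ^ (i : ℕ))).map (algebraMap K F)).det = w ^ m := by
  have hchF : CharP F p := charP_of_injective_algebraMap (algebraMap K F).injective p
  let M : Matrix (Fin n) (Fin n) F := (Algebra.leftMulMatrix f ξ).map (algebraMap K F)
  have hM : ∀ i : ℕ, (Algebra.leftMulMatrix f (ξ ^ i)).map (algebraMap K F) = M ^ i := by
    intro i
    have h1 := map_pow ((algebraMap K F).mapMatrix (m := Fin n)) (Algebra.leftMulMatrix f ξ) i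
    rw [map_pow]
    exact h1
  have hMq : M ^ p ^ a = algebraMap F _ (algebraMap K F c) := by
    rw [← hM, hξ, AlgHom.commutes]
    ext i j
    rw [Matrix.map_apply, Matrix.algebraMap_matrix_apply, Matrix.algebraMap_matrix_apply]
    split_ifs
    · rfl
    · exact map_zero _
  have h1 : ∑ i : Fin (p ^ a), ∑ j : Fin n, (e i j • w ^ (j : ℕ)) •
      (Algebra.leftMulMatrix f (ξ ^ (i : ℕ))).map (algebraMap K F) =
      ∑ x ∈ (Finset.univ : Finset (Fin (p ^ a) × Fin n)),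
        (e x.1 x.2 • w ^ (x.2 : ℕ)) • M ^ (x.1 : ℕ) := by
    rw [← Finset.univ_product_univ, Finset.sum_product]
    exact Finset.sum_congr rfl fun i _ => Finset.sum_congr rfl fun j _ => by rw [hM]
  have h2 := frob_sum (k := F) p a M (Finset.univ : Finset (Fin (p ^ a) × Fin n))
    (fun x => e x.1 x.2 • w ^ (x.2 : ℕ)) (fun x => (x.1 : ℕ))
  rw [← h1] at h2
  have h3 : ∑ x ∈ (Finset.univ : Finset (Fin (p ^ a) × Fin n)),
      (e x.1 x.2 • w ^ (x.2 : ℕ)) ^ p ^ a • M ^ ((x.1 : ℕ) * p ^ a) = algebraMap F _ w := by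
    have h4 : ∀ x : Fin (p ^ a) × Fin n,
        (e x.1 x.2 • w ^ (x.2 : ℕ)) ^ p ^ a • M ^ ((x.1 : ℕ) * p ^ a) =
        algebraMap F (Matrix (Fin n) (Fin n) F)
          ((c ^ (x.1 : ℕ) * e x.1 x.2 ^ p ^ a) • w ^ (p ^ a * (x.2 : ℕ))) := by
      intro x
      have hc' : M ^ ((x.1 : ℕ) * p ^ a) = algebraMap F _ (algebraMap K F c ^ (x.1 : ℕ)) := by
        rw [mul_comm, pow_mul, hMq, map_pow]
      rw [hc', Algebra.smul_def, ← map_mul, Algebra.smul_def, Algebra.smul_def]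
      congr 1
      rw [mul_pow, ← pow_mul, map_mul, map_pow, map_pow, mul_comm (x.2 : ℕ)]
      ring
    rw [Finset.sum_congr rfl fun x _ => h4 x, ← map_sum, ← Finset.univ_product_univ,
      Finset.sum_product, Finset.sum_comm]
    congr 1
    conv_rhs => rw [hw]
    exact Finset.sum_congr rfl fun j _ => by rw [Finset.sum_smul]
  rw [h3] at h2
  apply pow_inj p a
  have h5 := congrArg Matrix.det h2
  rw [Matrix.det_pow] at h5
  rw [h5, Matrix.algebraMap_eq_diagonal, Matrix.det_diagonal]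
  simp only [Pi.algebraMap_apply, Algebra.algebraMap_self_apply, Finset.prod_const,
    Finset.card_univ, Fintype.card_fin]
  rw [← pow_mul, mul_comm m, ← hnm]

/-- **The root over `L`.** -/
theorem det_root2 {D : Type} [DivisionRing D] [Algebra K D] (R : D →ₐ[K] Matrix (Fin n) (Fin n) L)
    {ξ : L} {c : K} (hξ : ξ ^ p ^ a = algebraMap K L c)
    (e : Fin (p ^ a) → Fin n → K) (w : D)
    (hw : w = ∑ j : Fin n, (∑ i : Fin (p ^ a), c ^ (i : ℕ) * e i j ^ p ^ a) • w ^ (p ^ a * (j : ℕ))) :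
    (∑ i : Fin (p ^ a), ∑ j : Fin n, ξ ^ (i : ℕ) • R (e i j • w ^ (j : ℕ))).det ^ p ^ a = (R w).det := by
  have hchL : CharP L p := charP_of_injective_algebraMap (algebraMap K L).injective p
  have h1 : ∑ i : Fin (p ^ a), ∑ j : Fin n, ξ ^ (i : ℕ) • R (e i j • w ^ (j : ℕ)) =
      ∑ x ∈ (Finset.univ : Finset (Fin (p ^ a) × Fin n)),
        (algebraMap K L (e x.1 x.2) * ξ ^ (x.1 : ℕ)) • R w ^ (x.2 : ℕ) := by
    rw [← Finset.univ_product_univ, Finset.sum_product]
    refine Finset.sum_congr rfl fun i _ => Finset.sum_congr rfl fun j _ => ?_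
    rw [map_smul, map_pow, mul_comm, mul_smul, algebraMap_smul]
  have h2 := frob_sum (k := L) p a (R w) (Finset.univ : Finset (Fin (p ^ a) × Fin n))
    (fun x => algebraMap K L (e x.1 x.2) * ξ ^ (x.1 : ℕ)) (fun x => (x.2 : ℕ))
  rw [← h1] at h2
  have h3 : ∑ x ∈ (Finset.univ : Finset (Fin (p ^ a) × Fin n)),
      (algebraMap K L (e x.1 x.2) * ξ ^ (x.1 : ℕ)) ^ p ^ a • R w ^ ((x.2 : ℕ) * p ^ a) = R w := by
    have h4 : ∀ x : Fin (p ^ a) × Fin n,
        (algebraMap K L (e x.1 x.2) * ξ ^ (x.1 : ℕ)) ^ p ^ a • R w ^ ((x.2 : ℕ) * p ^ a) =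
        R ((c ^ (x.1 : ℕ) * e x.1 x.2 ^ p ^ a) • w ^ (p ^ a * (x.2 : ℕ))) := by
      intro x
      have h5 : (algebraMap K L (e x.1 x.2) * ξ ^ (x.1 : ℕ)) ^ p ^ a =
          algebraMap K L (c ^ (x.1 : ℕ) * e x.1 x.2 ^ p ^ a) := by
        rw [mul_pow, ← pow_mul, mul_comm (x.1 : ℕ), pow_mul, hξ, map_mul, map_pow, map_pow,
          mul_comm]
      rw [h5, map_smul, map_pow, algebraMap_smul, mul_comm (x.2 : ℕ)]
    rw [Finset.sum_congr rfl fun x _ => h4 x, ← map_sum, ← Finset.univ_product_univ,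
      Finset.sum_product, Finset.sum_comm]
    congr 1
    conv_rhs => rw [hw]
    exact Finset.sum_congr rfl fun j _ => by rw [Finset.sum_smul]
  rw [h3] at h2
  rw [← Matrix.det_pow, h2]

omit [Fact p.Prime] [CharP K p] in
/-- **The intertwining of the two roots.** -/
theorem inter_root {D : Type} [DivisionRing D] [Algebra K D] {ι : L →ₐ[K] D} {b : Fin n → D}
    (f : Basis (Fin n) K L) {R : D →ₐ[K] Matrix (Fin n) (Fin n) L}
    (hR : ∀ d j, b j * d = ∑ k, ι (R d j k) * b k) (ξ : L)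
    (e : Fin (p ^ a) → Fin n → K) (w : D) :
    P ι b f * (∑ i : Fin (p ^ a), ∑ j : Fin n, (e i j • w ^ (j : ℕ)) •
      (Algebra.leftMulMatrix f (ξ ^ (i : ℕ))).map (algebraMap K D)) =
    (∑ i : Fin (p ^ a), ∑ j : Fin n, ξ ^ (i : ℕ) • R (e i j • w ^ (j : ℕ))).map ι * P ι b f := by
  have h1 : (∑ i : Fin (p ^ a), ∑ j : Fin n, ξ ^ (i : ℕ) • R (e i j • w ^ (j : ℕ))).map ι =
      ∑ i : Fin (p ^ a), ∑ j : Fin n, (ξ ^ (i : ℕ) • R (e i j • w ^ (j : ℕ))).map ι := by
    have h2 := map_sum ((ι : L →+* D).mapMatrix (m := Fin n))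
      (fun i : Fin (p ^ a) => ∑ j : Fin n, ξ ^ (i : ℕ) • R (e i j • w ^ (j : ℕ))) Finset.univ
    refine h2.trans (Finset.sum_congr rfl fun i _ => ?_)
    exact map_sum ((ι : L →+* D).mapMatrix (m := Fin n)) _ _
  rw [h1, Finset.mul_sum, Finset.sum_mul]
  refine Finset.sum_congr rfl fun i _ => ?_
  rw [Finset.mul_sum, Finset.sum_mul]
  exact Finset.sum_congr rfl fun j _ => inter f hR _ _

end

end Vale.Agent.P011.H209.Insep
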