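import Vale.Agent.P011.W.Cent

/-!
# The explicit intertwiner of a maximal subfield

`D` is a central division algebra of degree `n` over `K`, `ι : L → D` a maximal subfield, `f` a
`K`-basis of `L`, `a` a basis of `D` as a left `L`-space.  The matrix `P j i = ι (f i) * a j`
intertwines the two embeddings of `D ⊗ L` into the matrices over `D`.
-/

open Module Matrix

namespace Vale.Agent.P011.H209.Insep

variable {K D L : Type} [Field K] [DivisionRing D] [Algebra K D] [FiniteDimensional K D]
  [Field L] [Algebra K L] {n : ℕ}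

/-- A left basis of `D` over a maximal subfield. -/
structure LB (ι : L →ₐ[K] D) (a : Fin n → D) : Prop where
  span : ∀ d : D, ∃ r : Fin n → L, d = ∑ j, ι (r j) * a j
  li : ∀ r : Fin n → L, ∑ j, ι (r j) * a j = 0 → r = 0

theorem exists_lb (hD : finrank K D = n ^ 2) (hn : 0 < n) (hL : finrank K L = n)
    (ι : L →ₐ[K] D) : ∃ a : Fin n → D, LB ι a := by
  have hfinL : FiniteDimensional K L := Module.finite_of_finrank_pos (by rw [hL]; exact hn)
  let _ : Module L D := Module.compHom D (ι : L →+* D)
  have hsmul : ∀ (l : L) (x : D), l • x = ι l * x := fun _ _ => rfl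
  have htower : IsScalarTower K L D := ⟨fun k l x => by
    rw [hsmul, hsmul, map_smul, smul_mul_assoc]⟩
  have hfin : Module.Finite L D := Module.Finite.of_restrictScalars_finite K L D
  have h1 : finrank L D = n := by
    have h1 : finrank K L * finrank L D = finrank K D := Module.finrank_mul_finrank K L D
    rw [hL, hD, sq] at h1
    exact Nat.eq_of_mul_eq_mul_left hn h1
  let b : Basis (Fin n) L D := Module.finBasisOfFinrankEq L D h1
  refine ⟨b, ⟨fun d => ⟨b.repr d, (b.sum_repr d).symm⟩, fun r hr => ?_⟩⟩
  have h2 := Fintype.linearIndependent_iff.mp b.linearIndependent r hr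
  exact funext h2

/-- A maximal subfield is its own centralizer. -/
theorem self_cent [Algebra.IsCentral K D] (hD : finrank K D = n ^ 2) (hn : 0 < n)
    (hL : finrank K L = n) (ι : L →ₐ[K] D) {d : D} (hd : ∀ l, d * ι l = ι l * d) :
    ∃ r, d = ι r := by
  have hr : finrank K ι.range = n := by
    rw [← hL]
    exact (AlgEquiv.ofInjective ι ι.toRingHom.injective).toLinearEquiv.finrank_eq.symm
  have h1 : finrank K ι.range * finrank K (Subalgebra.centralizer K (ι.range : Set D)) =
      finrank K D := Vale.Agent.P011.T2.finrank_centralizer (K := K) ι.range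
  rw [hr, hD, sq] at h1
  have h2 := Nat.eq_of_mul_eq_mul_left hn h1
  have h3 : ι.range = Subalgebra.centralizer K (ι.range : Set D) := by
    apply Subalgebra.eq_of_le_of_finrank_le
    · rintro _ ⟨z, rfl⟩
      rw [Subalgebra.mem_centralizer_iff]
      rintro _ ⟨z', rfl⟩
      change ι z' * ι z = ι z * ι z'
      rw [← map_mul, ← map_mul, mul_comm]
    · rw [h2, hr]
  have h4 : d ∈ ι.range := by
    rw [h3, Subalgebra.mem_centralizer_iff]
    rintro _ ⟨z, rfl⟩
    exact (hd z).symm
  obtain ⟨r, hr⟩ := h4
  exact ⟨r, hr.symm⟩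

variable {ι : L →ₐ[K] D} {a : Fin n → D}

omit [FiniteDimensional K D] in
theorem LB.ext (h : LB ι a) {r s : Fin n → L}
    (hrs : ∑ j, ι (r j) * a j = ∑ j, ι (s j) * a j) : r = s := by
  have h1 := h.li (r - s) (by
    simp only [Pi.sub_apply, map_sub, sub_mul, Finset.sum_sub_distrib]
    rw [hrs, sub_self])
  exact sub_eq_zero.mp h1

omit [FiniteDimensional K D] in
/-- Right multiplication in coordinates. -/
theorem LB.exists_rho (h : LB ι a) : ∃ R : D →ₐ[K] Matrix (Fin n) (Fin n) L,
    ∀ d j, a j * d = ∑ k, ι (R d j k) * a k := by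
  choose c hc using h.span
  let R0 : D → Matrix (Fin n) (Fin n) L := fun d => Matrix.of fun j => c (a j * d)
  have hR0 : ∀ d j, a j * d = ∑ k, ι (R0 d j k) * a k := fun d j => hc (a j * d)
  have huniq : ∀ d (M : Matrix (Fin n) (Fin n) L),
      (∀ j, a j * d = ∑ k, ι (M j k) * a k) → R0 d = M := by
    intro d M hM
    refine Matrix.ext fun j k => ?_
    have h1 : (fun k => R0 d j k) = fun k => M j k := h.ext ((hR0 d j).symm.trans (hM j))
    exact congrFun h1 k
  have hadd : ∀ d e, R0 (d + e) = R0 d + R0 e := fun d e => huniq _ _ fun j => by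
    rw [mul_add, hR0 d j, hR0 e j, ← Finset.sum_add_distrib]
    exact Finset.sum_congr rfl fun k _ => by rw [Matrix.add_apply, map_add, add_mul]
  have hmul : ∀ d e, R0 (d * e) = R0 d * R0 e := fun d e => huniq _ _ fun j => by
    rw [← mul_assoc, hR0 d j, Finset.sum_mul]
    simp only [mul_assoc, hR0 e, Finset.mul_sum, Matrix.mul_apply, map_sum, map_mul,
      Finset.sum_mul]
    rw [Finset.sum_comm]
  have halg : ∀ t : K, R0 (algebraMap K D t) = algebraMap K (Matrix (Fin n) (Fin n) L) t := by
    intro t
    refine huniq _ _ fun j => ?_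
    rw [Finset.sum_eq_single j]
    · rw [Matrix.algebraMap_matrix_apply, if_pos rfl, ι.commutes]
      exact (Algebra.commutes t (a j)).symm
    · intro k _ hk
      rw [Matrix.algebraMap_matrix_apply, if_neg (fun e => hk e.symm), map_zero, zero_mul]
    · intro hj
      exact absurd (Finset.mem_univ j) hj
  have h1 : R0 1 = 1 := by
    have := halg 1
    rwa [map_one, map_one] at this
  have h0 : R0 0 = 0 := by
    have := halg 0
    rwa [map_zero, map_zero] at this
  exact ⟨{ toFun := R0, map_one' := h1, map_mul' := hmul, map_zero' := h0, map_add' := hadd,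
           commutes' := halg }, hR0⟩

/-- The intertwiner. -/
noncomputable def P (ι : L →ₐ[K] D) (a : Fin n → D) (f : Basis (Fin n) K L) : Matrix (Fin n) (Fin n) D :=
  Matrix.of fun j i => ι (f i) * a j

omit [FiniteDimensional K D] in
/-- **The intertwining relation.** -/
theorem inter (f : Basis (Fin n) K L) {R : D →ₐ[K] Matrix (Fin n) (Fin n) L}
    (hR : ∀ d j, a j * d = ∑ k, ι (R d j k) * a k) (d : D) (l : L) :
    P ι a f * (d • (Algebra.leftMulMatrix f l).map (algebraMap K D)) =
      (l • R d).map ι * P ι a f := by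
  ext j i
  rw [Matrix.mul_apply, Matrix.mul_apply]
  have h1 : ∑ k, (Algebra.leftMulMatrix f l k i) • f k = l * f i := by
    have h2 := f.sum_repr (l * f i)
    rw [← h2]
    exact Finset.sum_congr rfl fun k _ => by
      rw [Algebra.leftMulMatrix_eq_repr_mul]
  have h3 : ι (l * f i) * (a j * d) =
      ∑ k, P ι a f j k * (d • (Algebra.leftMulMatrix f l).map (algebraMap K D)) k i := by
    rw [← h1, map_sum, Finset.sum_mul]
    refine Finset.sum_congr rfl fun k _ => ?_
    rw [map_smul, Matrix.smul_apply, Matrix.map_apply, smul_eq_mul]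
    change _ = ι (f k) * a j * (d * algebraMap K D (Algebra.leftMulMatrix f l k i))
    rw [← Algebra.commutes, Algebra.smul_def]
    have hc : ∀ x : D, algebraMap K D (Algebra.leftMulMatrix f l k i) * x =
        x * algebraMap K D (Algebra.leftMulMatrix f l k i) := Algebra.commutes _
    generalize algebraMap K D (Algebra.leftMulMatrix f l k i) = c at hc ⊢
    simp only [mul_assoc]
    rw [hc (ι (f k) * (a j * d)), hc d]
    simp only [mul_assoc]
  rw [← h3, hR d j, Finset.mul_sum]
  refine Finset.sum_congr rfl fun k _ => ?_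
  rw [Matrix.map_apply, Matrix.smul_apply, smul_eq_mul]
  change _ = ι (l * R d j k) * (ι (f i) * a k)
  rw [← mul_assoc, ← mul_assoc, ← map_mul, ← map_mul]
  congr 2
  ring

omit [FiniteDimensional K D] in
open Classical in
theorem LB.ker (h : LB ι a) (hcent : ∀ d : D, (∀ l, d * ι l = ι l * d) → ∃ r, d = ι r) :
    ∀ (N : ℕ) (δ : Fin n → D), (Finset.univ.filter fun j => δ j ≠ 0).card ≤ N →
      (∀ l, ∑ j, δ j * ι l * a j = 0) → δ = 0 := by
  classical
  intro N
  induction N with
  | zero =>
    intro δ hδ _
    funext j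
    by_contra hj
    have h1 : j ∈ Finset.univ.filter fun j => δ j ≠ 0 :=
      Finset.mem_filter.mpr ⟨Finset.mem_univ j, hj⟩
    have h2 := Finset.card_pos.mpr ⟨j, h1⟩
    omega
  | succ N ih =>
    intro δ hδ hs
    by_contra hne
    obtain ⟨j0, hj0⟩ : ∃ j0, δ j0 ≠ 0 := by
      by_contra hall
      push Not at hall
      exact hne (funext hall)
    let δ' : Fin n → D := fun j => (δ j0)⁻¹ * δ j
    have hs' : ∀ l, ∑ j, δ' j * ι l * a j = 0 := by
      intro l
      have h1 : ∑ j, δ' j * ι l * a j = (δ j0)⁻¹ * ∑ j, δ j * ι l * a j := by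
        rw [Finset.mul_sum]
        exact Finset.sum_congr rfl fun j _ => by simp only [δ', mul_assoc]
      rw [h1, hs l, mul_zero]
    have hcomm : ∀ j l, δ' j * ι l = ι l * δ' j := by
      intro j l
      have h1 := ih (fun j => δ' j * ι l - ι l * δ' j) (by
        have h2 : (Finset.univ.filter fun j => δ' j * ι l - ι l * δ' j ≠ 0) ⊆
            (Finset.univ.filter fun j => δ j ≠ 0).erase j0 := by
          intro i hi
          rw [Finset.mem_filter] at hi
          refine Finset.mem_erase.mpr ⟨?_, Finset.mem_filter.mpr ⟨Finset.mem_univ i, ?_⟩⟩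
          · rintro rfl
            apply hi.2
            simp only [δ', inv_mul_cancel₀ hj0, one_mul, mul_one, sub_self]
          · intro h0
            apply hi.2
            simp only [δ', h0, mul_zero, zero_mul, sub_self]
        have h3 := Finset.card_le_card h2
        rw [Finset.card_erase_of_mem (Finset.mem_filter.mpr ⟨Finset.mem_univ j0, hj0⟩)] at h3
        omega) (by
        intro l'
        have h4 : ∑ i, (δ' i * ι l - ι l * δ' i) * ι l' * a i =
            ∑ i, δ' i * ι (l * l') * a i - ι l * ∑ i, δ' i * ι l' * a i := by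
          rw [Finset.mul_sum, ← Finset.sum_sub_distrib]
          exact Finset.sum_congr rfl fun i _ => by
            rw [map_mul]
            noncomm_ring
        rw [h4, hs', hs', mul_zero, sub_zero])
      exact sub_eq_zero.mp (congrFun h1 j)
    choose r hr using fun j => hcent (δ' j) (hcomm j)
    have h5 : r = 0 := h.li r (by
      have h6 := hs' 1
      rw [map_one] at h6
      rw [← h6]
      exact Finset.sum_congr rfl fun j _ => by rw [mul_one, ← hr j])
    have h7 : δ' j0 = 0 := by rw [hr j0, h5, Pi.zero_apply, map_zero]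
    have h8 : δ' j0 = 1 := inv_mul_cancel₀ hj0
    rw [h8] at h7
    exact one_ne_zero h7

omit [FiniteDimensional K D] in
theorem LB.vecMul_inj (h : LB ι a) (hcent : ∀ d : D, (∀ l, d * ι l = ι l * d) → ∃ r, d = ι r)
    (f : Basis (Fin n) K L) {v : Fin n → D} (hv : v ᵥ* P ι a f = 0) : v = 0 := by
  classical
  refine h.ker hcent n v ?_ ?_
  · refine (Finset.card_filter_le _ _).trans ?_
    rw [Finset.card_univ, Fintype.card_fin]
  · intro l
    have h1 : ∀ i, ∑ j, v j * ι (f i) * a j = 0 := by
      intro i
      have h2 := congrFun hv i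
      rw [Pi.zero_apply] at h2
      rw [← h2]
      change _ = ∑ j, v j * (ι (f i) * a j)
      exact Finset.sum_congr rfl fun j _ => mul_assoc _ _ _
    have h3 : ∑ j, v j * ι l * a j = ∑ i, f.repr l i • ∑ j, v j * ι (f i) * a j := by
      conv_lhs => rw [← f.sum_repr l]
      simp only [map_sum, map_smul, Finset.mul_sum, Finset.sum_mul, Finset.smul_sum,
        mul_smul_comm, smul_mul_assoc]
      rw [Finset.sum_comm]
    rw [h3]
    exact Finset.sum_eq_zero fun i _ => by rw [h1 i, smul_zero]

omit [FiniteDimensional K D] in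
/-- **The intertwiner is invertible.** -/
theorem LB.exists_inv (h : LB ι a)
    (hcent : ∀ d : D, (∀ l, d * ι l = ι l * d) → ∃ r, d = ι r) (f : Basis (Fin n) K L) :
    ∃ P' : Matrix (Fin n) (Fin n) D, P' * P ι a f = 1 ∧ P ι a f * P' = 1 := by
  have hinj : Function.Injective (Matrix.vecMulLinear (P ι a f)) := by
    rw [injective_iff_map_eq_zero]
    intro v hv
    exact h.vecMul_inj hcent f hv
  have hsurj := LinearMap.injective_iff_surjective.mp hinj
  choose r hr using fun i => hsurj (Pi.single i 1)
  refine ⟨Matrix.of r, ?_⟩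
  have h1 : Matrix.of r * P ι a f = 1 := by
    ext i j
    have h2 := congrFun (hr i) j
    rw [Matrix.mul_apply, Matrix.one_apply]
    change ∑ k, r i k * P ι a f k j = (Pi.single i 1 : Fin n → D) j at h2
    change ∑ k, r i k * P ι a f k j = _
    rw [h2, Pi.single_apply]
    by_cases hij : i = j
    · rw [if_pos hij, if_pos hij.symm]
    · rw [if_neg hij, if_neg (fun e => hij e.symm)]
  refine ⟨h1, ?_⟩
  have h3 : (P ι a f * Matrix.of r - 1) * P ι a f = 0 := by
    rw [sub_mul, one_mul, Matrix.mul_assoc, h1, Matrix.mul_one, sub_self]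
  have h4 : P ι a f * Matrix.of r - 1 = 0 := by
    refine Matrix.ext fun i j => ?_
    have h5 : (fun j => (P ι a f * Matrix.of r - 1) i j) ᵥ* P ι a f = 0 := by
      funext k
      exact congrFun (congrFun h3 i) k
    exact congrFun (h.vecMul_inj hcent f h5) j
  exact sub_eq_zero.mp h4

end Vale.Agent.P011.H209.Insep
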